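import Vale.Agent.P372.Privacy

/-!
# Bit protocols and their parallel repetition
-/

noncomputable section

open scoped BigOperators ComplexOrder Classical
open Matrix

namespace Vale.P372

variable {d n₀ m : ℕ}

/-- A Boolean as a bit. -/
def toBit (b : Bool) : ZMod 2 := finTwoEquiv.symm b

/-- Alice's bit. -/
def Protocol.bitA (B : Protocol d n₀ 1) (u : B.U) (t : B.T1) : ZMod 2 := toBit (B.keyA u t 0)

/-- Bob's bit. -/
def Protocol.bitB (B : Protocol d n₀ 1) (v : B.V) (t : B.T2) : ZMod 2 := toBit (B.keyB v t 0)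

/-- Branch labels. -/
abbrev Protocol.Label (B : Protocol d n₀ 1) : Type := B.U × B.V × B.SA × B.SB

/-- Alice's bit in a branch. -/
def Protocol.labA (B : Protocol d n₀ 1) (l : B.Label) : ZMod 2 := B.bitA l.1 (B.msg1 l.2.1)

/-- Bob's bit in a branch. -/
def Protocol.labB (B : Protocol d n₀ 1) (l : B.Label) : ZMod 2 :=
  B.bitB l.2.1 (B.msg2 l.1 (B.msg1 l.2.1))

/-- Eve's vector in a branch, with the transcript. -/
def Protocol.eveVec (B : Protocol d n₀ 1) (ψ : Fin d → Fin d → Fin m → ℂ) (l : B.Label)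
    (e : B.EveIndex m) : ℂ :=
  if e.1 = B.msg1 l.2.1 ∧ e.2.1 = B.msg2 l.1 (B.msg1 l.2.1)
  then B.amp ψ l.1 l.2.1 l.2.2.1 l.2.2.2 e.2.2 else 0

/-- A bit protocol in which Eve's two conditional states are those of vectors with real overlap
`f / 2`, and the bits differ with probability `δ`. -/
def BitGood (B : Protocol d n₀ 1) (ρ : Matrix (Fin d × Fin d) (Fin d × Fin d) ℂ) (f δ : ℝ) : Prop :=
  ∀ (m : ℕ) (ψ : Fin d → Fin d → Fin m → ℂ), Purifies ψ ρ →
    ∃ (R : Type) (_ : Fintype R) (η : ZMod 2 → R → B.EveIndex m → ℂ),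
      (∀ x e e', (∑ l, if B.labA l = x then B.eveVec ψ l e * starRingEnd ℂ (B.eveVec ψ l e') else 0) =
        ∑ a, η x a e * starRingEnd ℂ (η x a e')) ∧
      (∀ x, ∑ a, ∑ e, starRingEnd ℂ (η x a e) * η x a e = 1 / 2) ∧
      ∑ a, ∑ e, starRingEnd ℂ (η 0 a e) * η 1 a e = ((f / 2 : ℝ) : ℂ) ∧
      ∑ a, ∑ e, starRingEnd ℂ (η 1 a e) * η 0 a e = ((f / 2 : ℝ) : ℂ) ∧
      (∑ l, if B.labA l ≠ B.labB l then nsq (B.eveVec ψ l) else 0) = δ

variable {n rest : ℕ} {ι : Type} [Fintype ι]

/-- Split a configuration of all copies into blocks and the rest. -/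
def splitCopies (e : Fin n ≃ (ι × Fin n₀) ⊕ Fin rest) (α : Type) :
    (Fin n → α) ≃ (ι → Fin n₀ → α) × (Fin rest → α) :=
  (Equiv.arrowCongr e (Equiv.refl α)).trans
    ((Equiv.sumArrowEquivProdArrow _ _ _).trans
      (Equiv.prodCongr (Equiv.curry _ _ _) (Equiv.refl _)))

/-- The product of the block Kraus operators, the rest being kept. -/
def blockKraus {U S : Type} (e : Fin n ≃ (ι × Fin n₀) ⊕ Fin rest)
    (K : U → Matrix S (Fin n₀ → Fin d) ℂ) (u : ι → U) :
    Matrix ((ι → S) × (Fin rest → Fin d)) (Fin n → Fin d) ℂ := fun p a =>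
  (∏ i, K (u i) (p.1 i) ((splitCopies e _ a).1 i)) *
    if (splitCopies e _ a).2 = p.2 then 1 else 0

lemma blockKraus_complete [DecidableEq ι] {U S : Type} [Fintype U] [Fintype S]
    (e : Fin n ≃ (ι × Fin n₀) ⊕ Fin rest) (K : U → Matrix S (Fin n₀ → Fin d) ℂ)
    (hK : ∑ u, (K u)ᴴ * K u = 1) :
    ∑ u : ι → U, (blockKraus e K u)ᴴ * blockKraus e K u = 1 := by
  have hK' : ∀ a a', ∑ p : U × S, starRingEnd ℂ (K p.1 p.2 a) * K p.1 p.2 a' =
      if a = a' then 1 else 0 := fun a a' => by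
    have := congrFun (congrFun hK a) a'
    simpa [Matrix.sum_apply, mul_apply, one_apply, Fintype.sum_prod_type] using this
  ext a a'
  simp only [Matrix.sum_apply, mul_apply, conjTranspose_apply, Fintype.sum_prod_type, one_apply,
    blockKraus]
  set A := splitCopies e (Fin d) a with hA
  set A' := splitCopies e (Fin d) a' with hA'
  calc ∑ u : ι → U, ∑ s : ι → S, ∑ w,
        star ((∏ i, K (u i) (s i) (A.1 i)) * if A.2 = w then 1 else 0) *
          ((∏ i, K (u i) (s i) (A'.1 i)) * if A'.2 = w then 1 else 0)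
      = (∑ u : ι → U, ∑ s : ι → S,
          ∏ i, starRingEnd ℂ (K (u i) (s i) (A.1 i)) * K (u i) (s i) (A'.1 i)) *
            if A.2 = A'.2 then 1 else 0 := by
        rw [Finset.sum_mul]
        refine Finset.sum_congr rfl fun u _ => ?_
        rw [Finset.sum_mul]
        refine Finset.sum_congr rfl fun s _ => ?_
        rw [Finset.sum_eq_single A'.2]
        · by_cases h : A.2 = A'.2 <;> simp [h, Finset.prod_mul_distrib]
        · intro w _ hw; simp [Ne.symm hw]
        · simp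
    _ = (∏ i, ∑ p : U × S, starRingEnd ℂ (K p.1 p.2 (A.1 i)) * K p.1 p.2 (A'.1 i)) *
            if A.2 = A'.2 then 1 else 0 := by
        rw [Fintype.prod_sum, ← Fintype.sum_prod_type']
        congr 1
        exact Fintype.sum_equiv (Equiv.arrowProdEquivProdArrow ι (fun _ => U) (fun _ => S)).symm
          _ _ fun p => rfl
    _ = if a = a' then 1 else 0 := by
        simp only [hK', Fintype.prod_ite_zero, Finset.prod_const_one]
        by_cases h : a = a'
        · simp [A, A', h]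
        · rw [if_neg h]
          by_cases h1 : A.2 = A'.2
          · rw [if_neg, zero_mul]
            exact fun h2 => h ((splitCopies e (Fin d)).injective (Prod.ext (funext h2) h1))
          · rw [if_neg h1, mul_zero]

variable {r ℓ k : ℕ}

/-- Parallel repetition of a bit protocol followed by syndrome decoding and hashing. -/
abbrev codeProtocol (B : Protocol d n₀ 1) (θ : Code r ℓ k)
    (pick : (Fin r → ZMod 2) → Vec r ℓ k) (e : Fin n ≃ (CIdx r ℓ k × Fin n₀) ⊕ Fin rest) :
    Protocol d n ℓ where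
  U := CIdx r ℓ k → B.U
  V := CIdx r ℓ k → B.V
  SA := (CIdx r ℓ k → B.SA) × (Fin rest → Fin d)
  SB := (CIdx r ℓ k → B.SB) × (Fin rest → Fin d)
  T1 := CIdx r ℓ k → B.T1
  T2 := (CIdx r ℓ k → B.T2) × (Fin r → ZMod 2)
  krausA := blockKraus e B.krausA
  krausB := blockKraus e B.krausB
  completeA := blockKraus_complete e _ B.completeA
  completeB := blockKraus_complete e _ B.completeB
  msg1 v i := B.msg1 (v i)
  msg2 u t := (fun i => B.msg2 (u i) (t i), syn θ fun i => B.bitA (u i) (t i))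
  keyA u t := kbEquiv ℓ (key θ fun i => B.bitA (u i) (t i))
  keyB v t := kbEquiv ℓ (key θ
    ((fun i => B.bitB (v i) (t.1 i)) + pick (t.2 + syn θ fun i => B.bitB (v i) (t.1 i))))

/-- The tail vector of the unused copies. -/
def tailVec (ψ : Fin d → Fin d → Fin m → ℂ) (w : (Fin rest → Fin d) × (Fin rest → Fin d))
    (e : Fin rest → Fin m) : ℂ :=
  ∏ j, ψ (w.1 j) (w.2 j) (e j)

lemma amp_code (B : Protocol d n₀ 1) (θ : Code r ℓ k) (pick : (Fin r → ZMod 2) → Vec r ℓ k)
    (e : Fin n ≃ (CIdx r ℓ k × Fin n₀) ⊕ Fin rest) (ψ : Fin d → Fin d → Fin m → ℂ)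
    (u : CIdx r ℓ k → B.U) (v : CIdx r ℓ k → B.V)
    (s : (CIdx r ℓ k → B.SA) × (Fin rest → Fin d)) (t : (CIdx r ℓ k → B.SB) × (Fin rest → Fin d))
    (x : Fin n → Fin m) :
    (codeProtocol B θ pick e).amp ψ u v s t x =
      (∏ i, B.amp ψ (u i) (v i) (s.1 i) (t.1 i) ((splitCopies e _ x).1 i)) *
        tailVec ψ (s.2, t.2) (splitCopies e _ x).2 := by
  have hprod : ∀ a b : Fin n → Fin d, (∏ j, ψ (a j) (b j) (x j)) =
      (∏ i, ∏ j, ψ ((splitCopies e _ a).1 i j) ((splitCopies e _ b).1 i j)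
        ((splitCopies e _ x).1 i j)) *
      ∏ j, ψ ((splitCopies e _ a).2 j) ((splitCopies e _ b).2 j) ((splitCopies e _ x).2 j) := by
    intro a b
    rw [← Equiv.prod_comp e.symm, Fintype.prod_sum_type, Fintype.prod_prod_type]
    rfl
  simp only [Protocol.amp, blockKraus, hprod]
  rw [← Equiv.sum_comp (splitCopies e (Fin d)).symm]
  simp only [← Equiv.sum_comp (splitCopies e (Fin d)).symm (fun b : Fin n → Fin d => _),
    Equiv.apply_symm_apply, Fintype.sum_prod_type]
  rw [Fintype.prod_sum]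
  simp only [Fintype.prod_sum, Finset.sum_mul]
  refine Finset.sum_congr rfl fun a _ => ?_
  rw [Finset.sum_eq_single s.2]
  · refine Finset.sum_congr rfl fun b _ => ?_
    rw [Finset.sum_eq_single t.2]
    · simp only [tailVec, Finset.prod_mul_distrib, if_true]
      ring
    · intro w _ hw; simp [hw]
    · simp
  · intro w _ hw; simp [hw]
  · simp

/-- Branch labels of the parallel protocol, blockwise. -/
def labelSplit (B : Protocol d n₀ 1) (ι : Type) (rest : ℕ) :
    ((ι → B.U) × (ι → B.V) × ((ι → B.SA) × (Fin rest → Fin d)) ×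
      ((ι → B.SB) × (Fin rest → Fin d))) ≃
    (ι → B.Label) × ((Fin rest → Fin d) × (Fin rest → Fin d)) where
  toFun l := (fun i => (l.1 i, l.2.1 i, l.2.2.1.1 i, l.2.2.2.1 i), (l.2.2.1.2, l.2.2.2.2))
  invFun p := (fun i => (p.1 i).1, fun i => (p.1 i).2.1,
    (fun i => (p.1 i).2.2.1, p.2.1), (fun i => (p.1 i).2.2.2, p.2.2))
  left_inv _ := rfl
  right_inv _ := rfl

end Vale.P372
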