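import Vale.Agent.P372.Counting
import Vale.Agent.P372.Parallel

/-!
# A good bit protocol gives a positive key rate
-/

noncomputable section

open scoped BigOperators ComplexOrder Classical
open Matrix

namespace Vale.P372

variable {d n₀ n rest m r ℓ k : ℕ}

lemma sum_prod_mul {ι α β M : Type} [Fintype ι] [DecidableEq ι] [Fintype α] [Fintype β] [CommRing M]
    (F : ι → α → M) (G : β → M) :
    ∑ p : (ι → α) × β, (∏ i, F i (p.1 i)) * G p.2 = (∏ i, ∑ a, F i a) * ∑ b, G b := by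
  rw [Fintype.sum_prod_type, Fintype.prod_sum, Finset.sum_mul_sum]

lemma nsq_prod_mul {ι α β : Type} [Fintype ι] [DecidableEq ι] [Fintype α] [Fintype β] (F : ι → α → ℂ)
    (G : β → ℂ) :
    nsq (fun p : (ι → α) × β => (∏ i, F i (p.1 i)) * G p.2) = (∏ i, nsq (F i)) * nsq G := by
  unfold nsq
  rw [← sum_prod_mul (fun i a => ‖F i a‖ ^ 2) (fun b => ‖G b‖ ^ 2)]
  refine Finset.sum_congr rfl fun p _ => ?_
  rw [norm_mul, norm_prod, mul_pow, Finset.prod_pow]

/-- Product distribution on a block: `1 - p` at `0` and `p` at `1` in each place. -/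
def binom (p : ℝ) (u : Vec r ℓ k) : ℝ := ∏ i, if u i = 0 then 1 - p else p

lemma binom_nonneg {p : ℝ} (h₀ : 0 ≤ p) (h₁ : p ≤ 1) (u : Vec r ℓ k) : 0 ≤ binom p u :=
  Finset.prod_nonneg fun i _ => by split_ifs <;> linarith

lemma zmod_two_univ {M : Type} [AddCommMonoid M] (g : ZMod 2 → M) : ∑ a, g a = g 0 + g 1 := by
  exact Fin.sum_univ_two g

lemma sum_binom (p : ℝ) : ∑ u : Vec r ℓ k, binom p u = 1 := by
  unfold binom
  rw [← Fintype.prod_sum (fun _ (a : ZMod 2) => if a = 0 then 1 - p else p)]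
  simp [zmod_two_univ]

lemma sum_sqrt_binom {p : ℝ} (h₀ : 0 ≤ p) (h₁ : p ≤ 1) :
    ∑ u : Vec r ℓ k, √(binom p u) = √(1 + 2 * √(p * (1 - p))) ^ (r + (ℓ + k)) := by
  have hs : √(1 + 2 * √(p * (1 - p))) = √(1 - p) + √p := by
    rw [Real.sqrt_eq_iff_mul_self_eq (by positivity) (by positivity), Real.sqrt_mul h₀]
    nlinarith [Real.mul_self_sqrt h₀, Real.mul_self_sqrt (sub_nonneg.2 h₁)]
  unfold binom
  rw [hs]
  calc ∑ u : Vec r ℓ k, √(∏ i, if u i = 0 then 1 - p else p)
      = ∑ u : Vec r ℓ k, ∏ i, √(if u i = 0 then 1 - p else p) := by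
        refine Finset.sum_congr rfl fun u _ => ?_
        exact Real.sqrt_prod _ (fun i _ => by split_ifs <;> linarith)
    _ = ∏ _i : CIdx r ℓ k, ∑ a : ZMod 2, √(if a = 0 then 1 - p else p) :=
        (Fintype.prod_sum (fun _ (a : ZMod 2) => √(if a = 0 then 1 - p else p))).symm
    _ = _ := by simp [zmod_two_univ]

/-- The sign of a bit. -/
def bitSign (a : ZMod 2) : ℂ := if a = 0 then 1 else -1

lemma bitSign_sum {ι : Type} (s : Finset ι) (g : ι → ZMod 2) :
    bitSign (∑ i ∈ s, g i) = ∏ i ∈ s, bitSign (g i) := by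
  induction s using Finset.induction_on with
  | empty => simp [bitSign]
  | insert a s ha ih =>
    rw [Finset.sum_insert ha, Finset.prod_insert ha, ← ih]
    exact sign_mul_sign _ _

lemma sgn_eq_prod (w x : Vec r ℓ k) : sgn w x = ∏ i, bitSign (w i * x i) :=
  bitSign_sum Finset.univ fun i => w i * x i

/-- Eve's coordinates blockwise. -/
def eveSplit (B : Protocol d n₀ 1) (ι : Type) [Fintype ι] (e : Fin n ≃ (ι × Fin n₀) ⊕ Fin rest)
    (m : ℕ) :
    ((ι → B.T1) × (ι → B.T2) × (Fin n → Fin m)) ≃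
      (ι → B.EveIndex m) × (Fin rest → Fin m) where
  toFun x := (fun i => (x.1 i, x.2.1 i, (splitCopies e _ x.2.2).1 i), (splitCopies e _ x.2.2).2)
  invFun p := (fun i => (p.1 i).1, fun i => (p.1 i).2.1,
    (splitCopies e _).symm (fun i => (p.1 i).2.2, p.2))
  left_inv x := by simp
  right_inv p := by simp

variable {ι : Type} [Fintype ι] [DecidableEq ι]

/-- A product vector on Eve's systems. -/
def tens (B : Protocol d n₀ 1) (e : Fin n ≃ (ι × Fin n₀) ⊕ Fin rest)
    (v : ι → B.EveIndex m → ℂ) (t : (Fin rest → Fin m) → ℂ)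
    (x : (ι → B.T1) × (ι → B.T2) × (Fin n → Fin m)) : ℂ :=
  (∏ i, v i ((eveSplit B ι e m x).1 i)) * t (eveSplit B ι e m x).2

lemma nsq_tens (B : Protocol d n₀ 1) (e : Fin n ≃ (ι × Fin n₀) ⊕ Fin rest)
    (v : ι → B.EveIndex m → ℂ) (t : (Fin rest → Fin m) → ℂ) :
    nsq (tens B e v t) = (∏ i, nsq (v i)) * nsq t := by
  rw [← nsq_prod_mul]
  unfold nsq tens
  exact Fintype.sum_equiv (eveSplit B ι e m) _ _ fun x => rfl

variable {ρ : Matrix (Fin d × Fin d) (Fin d × Fin d) ℂ} {ψ : Fin d → Fin d → Fin m → ℂ}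

lemma tail_total (hψ : Purifies ψ ρ) (htr : ∑ x, ρ x x = 1) :
    ∑ t : (Fin rest → Fin d) × (Fin rest → Fin d), nsq (tailVec ψ t) = 1 := by
  have h1 : ∑ a : Fin d, ∑ b : Fin d, ∑ c, ‖ψ a b c‖ ^ 2 = 1 := by
    have h : ((∑ a : Fin d, ∑ b : Fin d, ∑ c, ‖ψ a b c‖ ^ 2 : ℝ) : ℂ) = 1 := by
      rw [← htr, Fintype.sum_prod_type]
      push_cast
      refine Finset.sum_congr rfl fun a _ => Finset.sum_congr rfl fun b _ => ?_
      rw [hψ a b a b]
      exact Finset.sum_congr rfl fun c _ => (Complex.mul_conj' _).symm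
    exact_mod_cast h
  have h2 : ∀ t : (Fin rest → Fin d) × (Fin rest → Fin d),
      nsq (tailVec ψ t) = ∏ j, ∑ c, ‖ψ (t.1 j) (t.2 j) c‖ ^ 2 := by
    intro t
    rw [Fintype.prod_sum]
    unfold nsq tailVec
    exact Finset.sum_congr rfl fun x _ => by rw [norm_prod, Finset.prod_pow]
  simp only [h2]
  rw [← Equiv.sum_comp (Equiv.arrowProdEquivProdArrow (Fin rest) (fun _ => Fin d) (fun _ => Fin d))]
  simp only [Equiv.arrowProdEquivProdArrow_apply]
  rw [← Fintype.prod_sum (fun _ (p : Fin d × Fin d) => ∑ c, ‖ψ p.1 p.2 c‖ ^ 2)]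
  simp [Fintype.sum_prod_type, h1]

/-- Eve's components of definite phase. -/
def phaseVec {R Y : Type} (η : ZMod 2 → R → Y → ℂ) (c : ZMod 2) (a : R) (y : Y) : ℂ :=
  (η 0 a y + bitSign c * η 1 a y) / 2

lemma phaseVec_expand {R Y : Type} (η : ZMod 2 → R → Y → ℂ) (x : ZMod 2) (a : R) (y : Y) :
    η x a y = ∑ c, bitSign (c * x) * phaseVec η c a y := by
  rw [zmod_two_univ]
  rcases (by decide : ∀ x : ZMod 2, x = 0 ∨ x = 1) x with rfl | rfl <;>
    simp [phaseVec, bitSign] <;> ring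

lemma phaseVec_gram {R Y : Type} [Fintype R] [Fintype Y] {η : ZMod 2 → R → Y → ℂ} {f : ℝ}
    (hnorm : ∀ x, ∑ a, ∑ y, starRingEnd ℂ (η x a y) * η x a y = 1 / 2)
    (h01 : ∑ a, ∑ y, starRingEnd ℂ (η 0 a y) * η 1 a y = ((f / 2 : ℝ) : ℂ))
    (h10 : ∑ a, ∑ y, starRingEnd ℂ (η 1 a y) * η 0 a y = ((f / 2 : ℝ) : ℂ)) (c c' : ZMod 2) :
    ∑ a, ∑ y, starRingEnd ℂ (phaseVec η c a y) * phaseVec η c' a y =
      if c = c' then (((if c = 0 then 1 - (1 - f) / 2 else (1 - f) / 2) / 2 : ℝ) : ℂ) else 0 := by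
  have e1 : ∀ a y, starRingEnd ℂ (phaseVec η c a y) * phaseVec η c' a y =
      (starRingEnd ℂ (η 0 a y) * η 0 a y + bitSign c' * (starRingEnd ℂ (η 0 a y) * η 1 a y) +
        bitSign c * (starRingEnd ℂ (η 1 a y) * η 0 a y) +
        bitSign c * bitSign c' * (starRingEnd ℂ (η 1 a y) * η 1 a y)) / 4 := by
    intro a y
    have hc : starRingEnd ℂ (bitSign c) = bitSign c := by unfold bitSign; split_ifs <;> simp
    simp only [phaseVec, map_div₀, map_add, map_mul, hc, map_ofNat]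
    ring
  simp only [e1, ← Finset.sum_div, Finset.sum_add_distrib, ← Finset.mul_sum, hnorm, h01, h10]
  rcases (by decide : ∀ x : ZMod 2, x = 0 ∨ x = 1) c with rfl | rfl <;>
    rcases (by decide : ∀ x : ZMod 2, x = 0 ∨ x = 1) c' with rfl | rfl <;>
    simp [bitSign] <;> ring

lemma tens_cond (B : Protocol d n₀ 1) (e : Fin n ≃ (ι × Fin n₀) ⊕ Fin rest) {R : Type} [Fintype R]
    {η : ZMod 2 → R → B.EveIndex m → ℂ}
    (hcond : ∀ x y y', (∑ l, if B.labA l = x then
        B.eveVec ψ l y * starRingEnd ℂ (B.eveVec ψ l y') else 0) =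
      ∑ a, η x a y * starRingEnd ℂ (η x a y'))
    (x₀ : ι → ZMod 2) (y y' : (ι → B.T1) × (ι → B.T2) × (Fin n → Fin m)) :
    (∑ l : (ι → B.Label) × ((Fin rest → Fin d) × (Fin rest → Fin d)),
        if (fun i => B.labA (l.1 i)) = x₀ then
          tens B e (fun i => B.eveVec ψ (l.1 i)) (tailVec ψ l.2) y *
            starRingEnd ℂ (tens B e (fun i => B.eveVec ψ (l.1 i)) (tailVec ψ l.2) y') else 0) =
      ∑ a : (ι → R) × ((Fin rest → Fin d) × (Fin rest → Fin d)),
        tens B e (fun i => η (x₀ i) (a.1 i)) (tailVec ψ a.2) y *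
          starRingEnd ℂ (tens B e (fun i => η (x₀ i) (a.1 i)) (tailVec ψ a.2) y') := by
  set p := eveSplit B ι e m y with hp
  set p' := eveSplit B ι e m y' with hp'
  calc _ = ∑ l : (ι → B.Label) × ((Fin rest → Fin d) × (Fin rest → Fin d)),
        (∏ i, (fun i l => if B.labA l = x₀ i then B.eveVec ψ l (p.1 i) *
          starRingEnd ℂ (B.eveVec ψ l (p'.1 i)) else 0) i (l.1 i)) *
          (fun t => tailVec ψ t p.2 * starRingEnd ℂ (tailVec ψ t p'.2)) l.2 := by
        refine Finset.sum_congr rfl fun l _ => ?_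
        dsimp only
        rw [Fintype.prod_ite_zero]
        by_cases h : (fun i => B.labA (l.1 i)) = x₀
        · rw [if_pos h, if_pos (fun i => congrFun h i)]
          simp only [tens, map_mul, map_prod, Finset.prod_mul_distrib, ← hp, ← hp']
          ring
        · rw [if_neg h, if_neg (fun h' => h (funext h')), zero_mul]
    _ = (∏ i, ∑ a, η (x₀ i) a (p.1 i) * starRingEnd ℂ (η (x₀ i) a (p'.1 i))) *
          ∑ t, tailVec ψ t p.2 * starRingEnd ℂ (tailVec ψ t p'.2) := by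
        refine (sum_prod_mul (fun i l => if B.labA l = x₀ i then B.eveVec ψ l (p.1 i) *
          starRingEnd ℂ (B.eveVec ψ l (p'.1 i)) else 0)
          (fun t => tailVec ψ t p.2 * starRingEnd ℂ (tailVec ψ t p'.2))).trans ?_
        simp only [hcond]
    _ = _ := by
        rw [← sum_prod_mul]
        refine Finset.sum_congr rfl fun a _ => ?_
        simp only [tens, map_mul, map_prod, Finset.prod_mul_distrib, ← hp, ← hp']
        ring

lemma tens_gram (B : Protocol d n₀ 1) (e : Fin n ≃ (ι × Fin n₀) ⊕ Fin rest) {R : Type} [Fintype R]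
    (hψ : Purifies ψ ρ) (htr : ∑ x, ρ x x = 1) {ηs : ZMod 2 → R → B.EveIndex m → ℂ}
    {g : ZMod 2 → ℝ}
    (hG : ∀ c c', ∑ a, ∑ y, starRingEnd ℂ (ηs c a y) * ηs c' a y =
      if c = c' then (g c : ℂ) else 0)
    (w w' : ι → ZMod 2) :
    ∑ a : (ι → R) × ((Fin rest → Fin d) × (Fin rest → Fin d)),
      ∑ y, starRingEnd ℂ (tens B e (fun i => ηs (w i) (a.1 i)) (tailVec ψ a.2) y) *
        tens B e (fun i => ηs (w' i) (a.1 i)) (tailVec ψ a.2) y =
      if w = w' then ((∏ i, g (w i) : ℝ) : ℂ) else 0 := by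
  have e1 : ∀ a : (ι → R) × ((Fin rest → Fin d) × (Fin rest → Fin d)),
      ∑ y, starRingEnd ℂ (tens B e (fun i => ηs (w i) (a.1 i)) (tailVec ψ a.2) y) *
        tens B e (fun i => ηs (w' i) (a.1 i)) (tailVec ψ a.2) y =
      (∏ i, (fun i r => ∑ z, starRingEnd ℂ (ηs (w i) r z) * ηs (w' i) r z) i (a.1 i)) *
        (fun t => (nsq (tailVec ψ t) : ℂ)) a.2 := by
    intro a
    dsimp only
    rw [← star_dot_self (tailVec ψ a.2)]
    simp only [dotProduct, Pi.star_apply, Complex.star_def]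
    rw [← sum_prod_mul]
    refine Fintype.sum_equiv (eveSplit B ι e m) _ _ fun y => ?_
    simp only [tens, map_mul, map_prod, Finset.prod_mul_distrib]
    ring
  rw [Finset.sum_congr rfl fun a _ => e1 a,
    sum_prod_mul (fun i r => ∑ z, starRingEnd ℂ (ηs (w i) r z) * ηs (w' i) r z)
      (fun t => (nsq (tailVec ψ t) : ℂ))]
  simp only [hG, Fintype.prod_ite_zero, ← Complex.ofReal_sum, tail_total hψ htr,
    Complex.ofReal_one, mul_one, Complex.ofReal_prod]
  by_cases h : w = w'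
  · simp [h]
  · rw [if_neg (fun h' => h (funext h')), if_neg h]

lemma tens_err (B : Protocol d n₀ 1) (e : Fin n ≃ (ι × Fin n₀) ⊕ Fin rest) {δ : ℝ}
    (hψ : Purifies ψ ρ) (htr : ∑ x, ρ x x = 1)
    (htot : ∑ l, nsq (B.eveVec ψ l) = 1)
    (herr : (∑ l, if B.labA l ≠ B.labB l then nsq (B.eveVec ψ l) else 0) = δ)
    (F : (ι → ZMod 2) → ℝ) :
    ∑ l : (ι → B.Label) × ((Fin rest → Fin d) × (Fin rest → Fin d)),
      F (fun i => B.labA (l.1 i) + B.labB (l.1 i)) *
        nsq (tens B e (fun i => B.eveVec ψ (l.1 i)) (tailVec ψ l.2)) =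
      ∑ u, F u * ∏ i, (if u i = 0 then 1 - δ else δ) := by
  have hx : ∀ a b : ZMod 2, (a + b = 0 ↔ a = b) ∧ (a + b = 1 ↔ a ≠ b) := by decide
  have h1 : ∀ c, (∑ l, if B.labA l + B.labB l = c then nsq (B.eveVec ψ l) else 0) =
      if c = 0 then 1 - δ else δ := by
    intro c
    rcases (by decide : ∀ x : ZMod 2, x = 0 ∨ x = 1) c with rfl | rfl
    · rw [if_pos rfl, ← htot, ← herr, eq_sub_iff_add_eq, ← Finset.sum_add_distrib]
      refine Finset.sum_congr rfl fun l _ => ?_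
      simp only [(hx _ _).1]
      by_cases h : B.labA l = B.labB l <;> simp [h]
    · simp only [(hx _ _).2, ← herr]
      simp
  calc _ = ∑ u : ι → ZMod 2, ∑ l : (ι → B.Label) × ((Fin rest → Fin d) × (Fin rest → Fin d)),
        F u * ((∏ i, (fun i l => if B.labA l + B.labB l = u i then nsq (B.eveVec ψ l) else 0) i
          (l.1 i)) * (fun t => nsq (tailVec ψ t)) l.2) := by
        rw [Finset.sum_comm]
        refine Finset.sum_congr rfl fun l _ => ?_
        simp only [nsq_tens, Fintype.prod_ite_zero]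
        rw [Finset.sum_eq_single (fun i => B.labA (l.1 i) + B.labB (l.1 i))]
        · simp
        · intro u _ hu
          rw [if_neg (fun h => hu (funext fun i => (h i).symm)), zero_mul, mul_zero]
        · simp
    _ = _ := by
        refine Finset.sum_congr rfl fun u _ => ?_
        rw [← Finset.mul_sum]
        refine (congrArg (F u * ·) (sum_prod_mul
          (fun i l => if B.labA l + B.labB l = u i then nsq (B.eveVec ψ l) else 0)
          (fun t => nsq (tailVec ψ t)))).trans ?_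
        simp only [h1, tail_total hψ htr, mul_one]

/-- Reordering of Eve's system of the parallel protocol: syndrome first. -/
def eveEmb (B : Protocol d n₀ 1) (θ : Code r ℓ k) (pick : (Fin r → ZMod 2) → Vec r ℓ k)
    (e : Fin n ≃ (CIdx r ℓ k × Fin n₀) ⊕ Fin rest) (m : ℕ) :
    (Fin r → ZMod 2) × ((CIdx r ℓ k → B.T1) × (CIdx r ℓ k → B.T2) × (Fin n → Fin m)) ≃
      (codeProtocol B θ pick e).EveIndex m where
  toFun p := (p.2.1, (p.2.2.1, p.1), p.2.2.2)
  invFun q := (q.2.1.2, (q.1, q.2.1.1, q.2.2))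
  left_inv _ := rfl
  right_inv _ := rfl

lemma tens_eveVec (B : Protocol d n₀ 1) (e : Fin n ≃ (ι × Fin n₀) ⊕ Fin rest)
    (ψ : Fin d → Fin d → Fin m → ℂ) (l : ι → B.Label) (t : (Fin rest → Fin m) → ℂ)
    (x : ι → B.T1) (y : ι → B.T2) (w : Fin n → Fin m) :
    tens B e (fun i => B.eveVec ψ (l i)) t (x, y, w) =
      if (x = fun i => B.msg1 (l i).2.1) ∧ (y = fun i => B.msg2 (l i).1 (B.msg1 (l i).2.1)) then
        (∏ i, B.amp ψ (l i).1 (l i).2.1 (l i).2.2.1 (l i).2.2.2 ((splitCopies e _ w).1 i)) *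
          t (splitCopies e _ w).2 else 0 := by
  have hval : tens B e (fun i => B.eveVec ψ (l i)) t (x, y, w) =
      (∏ i, if x i = B.msg1 (l i).2.1 ∧ y i = B.msg2 (l i).1 (B.msg1 (l i).2.1) then
        B.amp ψ (l i).1 (l i).2.1 (l i).2.2.1 (l i).2.2.2 ((splitCopies e _ w).1 i) else 0) *
        t (splitCopies e _ w).2 := rfl
  rw [hval]
  simp only [funext_iff]
  by_cases h : (∀ i, x i = B.msg1 (l i).2.1) ∧ ∀ i, y i = B.msg2 (l i).1 (B.msg1 (l i).2.1)
  · rw [if_pos h, Finset.prod_congr rfl fun i _ => if_pos ⟨h.1 i, h.2 i⟩]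
  · rw [if_neg h]
    obtain ⟨i, hi⟩ := not_forall.1 (fun h' : ∀ i, x i = B.msg1 (l i).2.1 ∧
      y i = B.msg2 (l i).1 (B.msg1 (l i).2.1) => h ⟨fun i => (h' i).1, fun i => (h' i).2⟩)
    rw [Finset.prod_eq_zero (Finset.mem_univ i) (if_neg hi), zero_mul]

lemma outState_code (B : Protocol d n₀ 1) (θ : Code r ℓ k)
    (pick : (Fin r → ZMod 2) → Vec r ℓ k) (e : Fin n ≃ (CIdx r ℓ k × Fin n₀) ⊕ Fin rest)
    (ψ : Fin d → Fin d → Fin m → ℂ) :
    (codeProtocol B θ pick e).outState ψ =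
      ∑ l : (CIdx r ℓ k → B.Label) × ((Fin rest → Fin d) × (Fin rest → Fin d)),
        outer (keyed (kbEquiv ℓ (key θ fun i => B.labA (l.1 i)))
          (kbEquiv ℓ (key θ ((fun i => B.labB (l.1 i)) + pick ((syn θ fun i => B.labA (l.1 i)) +
            syn θ fun i => B.labB (l.1 i)))))
          (put (eveEmb B θ pick e m) (syn θ fun i => B.labA (l.1 i))
            (tens B e (fun i => B.eveVec ψ (l.1 i)) (tailVec ψ l.2)))) := by
  have hb : ∀ u v s t i, (codeProtocol B θ pick e).branch ψ u v s t i =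
      keyed (kbEquiv ℓ (key θ fun i => B.bitA (u i) (B.msg1 (v i))))
        (kbEquiv ℓ (key θ ((fun i => B.bitB (v i) (B.msg2 (u i) (B.msg1 (v i)))) +
          pick ((syn θ fun i => B.bitA (u i) (B.msg1 (v i))) +
            syn θ fun i => B.bitB (v i) (B.msg2 (u i) (B.msg1 (v i)))))))
        (put (eveEmb B θ pick e m) (syn θ fun i => B.bitA (u i) (B.msg1 (v i)))
          (tens B e (fun i => B.eveVec ψ (u i, v i, s.1 i, t.1 i)) (tailVec ψ (s.2, t.2)))) i := by
    intro u v s t i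
    obtain ⟨a, b, x, ⟨y, z⟩, w⟩ := i
    simp only [keyed, put]
    rw [show (eveEmb B θ pick e m).symm (x, (y, z), w) = (z, x, y, w) from rfl]
    dsimp only
    rw [tens_eveVec]
    simp only [Protocol.branch, amp_code, Prod.mk.injEq, ← ite_and]
    refine if_congr ?_ rfl rfl
    tauto
  rw [← Equiv.sum_comp (labelSplit B (CIdx r ℓ k) rest)]
  funext i j
  simp only [Protocol.outState, Matrix.sum_apply, hb, Fintype.sum_prod_type]
  rfl

lemma fail_le (B : Protocol d n₀ 1) {δ : ℝ} (hψ : Purifies ψ ρ) (htr : ∑ x, ρ x x = 1)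
    (htot : ∑ l, nsq (B.eveVec ψ l) = 1)
    (herr : (∑ l, if B.labA l ≠ B.labB l then nsq (B.eveVec ψ l) else 0) = δ)
    (hδ0 : 0 ≤ δ) (hδ1 : δ ≤ 1) (θ : Code r ℓ k) (pick : (Fin r → ZMod 2) → Vec r ℓ k)
    (e : Fin n ≃ (CIdx r ℓ k × Fin n₀) ⊕ Fin rest) :
    (∑ l : (CIdx r ℓ k → B.Label) × ((Fin rest → Fin d) × (Fin rest → Fin d)),
      if kbEquiv ℓ (key θ fun i => B.labA (l.1 i)) ≠
        kbEquiv ℓ (key θ ((fun i => B.labB (l.1 i)) + pick ((syn θ fun i => B.labA (l.1 i)) +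
          syn θ fun i => B.labB (l.1 i))))
      then nsq (tens B e (fun i => B.eveVec ψ (l.1 i)) (tailVec ψ l.2)) else 0) ≤
      ∑ u, if pick (syn θ u) ≠ u then binom δ u else 0 := by
  calc _ = ∑ l : (CIdx r ℓ k → B.Label) × ((Fin rest → Fin d) × (Fin rest → Fin d)),
        (fun u => if kbEquiv ℓ (key θ (pick (syn θ u))) ≠ kbEquiv ℓ (key θ u) then (1 : ℝ) else 0)
          (fun i => B.labA (l.1 i) + B.labB (l.1 i)) * nsq (tens B e (fun i => B.eveVec ψ (l.1 i)) (tailVec ψ l.2)) := by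
        refine Finset.sum_congr rfl fun l _ => ?_
        set a : Vec r ℓ k := fun i => B.labA (l.1 i)
        set b : Vec r ℓ k := fun i => B.labB (l.1 i)
        dsimp only
        rw [show (fun i => B.labA (l.1 i) + B.labB (l.1 i)) = a + b from rfl, syn_add]
        have hk : ∀ v w : Vec r ℓ k, key θ (v + w) = key θ v + key θ w := fun v w => by
          ext j
          simp only [key, Pi.add_apply, mul_add, Finset.sum_add_distrib]
          abel
        have hiff : key θ a = key θ (b + pick (syn θ a + syn θ b)) ↔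
            key θ (pick (syn θ a + syn θ b)) = key θ (a + b) := by
          rw [hk, hk]
          constructor <;> intro h <;> [rw [h]; rw [h]] <;> funext j <;>
            simp only [Pi.add_apply]
          · rw [add_comm (key θ b j), add_assoc, two_add, add_zero]
          · rw [add_comm (key θ a j), ← add_assoc, two_add, zero_add]
        simp only [EmbeddingLike.apply_eq_iff_eq, ne_eq, hiff]
        split_ifs <;> simp
    _ = ∑ u, (if kbEquiv ℓ (key θ (pick (syn θ u))) ≠ kbEquiv ℓ (key θ u) then (1 : ℝ) else 0) *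
          binom δ u := tens_err B e hψ htr htot herr
        (fun u => if kbEquiv ℓ (key θ (pick (syn θ u))) ≠ kbEquiv ℓ (key θ u) then (1 : ℝ) else 0)
    _ ≤ _ := Finset.sum_le_sum fun u _ => by
        by_cases h : pick (syn θ u) = u
        · simp [h]
        · rw [if_pos h]
          split_ifs <;> simp [binom_nonneg hδ0 hδ1]

theorem codeProtocol_error (B : Protocol d n₀ 1) {f δ : ℝ} (hB : BitGood B ρ f δ)
    (hψ : Purifies ψ ρ) (htr : ∑ x, ρ x x = 1) (θ : Code r ℓ k)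
    (pick : (Fin r → ZMod 2) → Vec r ℓ k) (T : Finset (Vec r ℓ k))
    (hT : ∀ w ∈ T, ∀ w' ∈ T, w ≠ w' → ¬ InDual θ (w + w'))
    (e : Fin n ≃ (CIdx r ℓ k × Fin n₀) ⊕ Fin rest) (hδ0 : 0 ≤ δ) (hδ1 : δ ≤ 1) :
    (codeProtocol B θ pick e).ErrorLE ψ
      (2 * (∑ u, if pick (syn θ u) ≠ u then binom δ u else 0) +
        2 * √(∑ w ∈ Tᶜ, binom ((1 - f) / 2) w) + ∑ w ∈ Tᶜ, binom ((1 - f) / 2) w) := by
  obtain ⟨R, _, η, hcond, hnorm, h01, h10, herr⟩ := hB m ψ hψ
  have htot : ∑ l, nsq (B.eveVec ψ l) = 1 := by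
    have h : ((∑ l, nsq (B.eveVec ψ l) : ℝ) : ℂ) = 1 := by
      calc ((∑ l, nsq (B.eveVec ψ l) : ℝ) : ℂ)
          = ∑ l, ∑ y, B.eveVec ψ l y * starRingEnd ℂ (B.eveVec ψ l y) := by
            simp only [Complex.ofReal_sum, nsq, Complex.ofReal_pow, Complex.mul_conj']
        _ = ∑ x, ∑ y, ∑ a, η x a y * starRingEnd ℂ (η x a y) := by
            simp only [← hcond]
            rw [Finset.sum_comm]
            conv_rhs => rw [Finset.sum_comm]
            exact Finset.sum_congr rfl fun y _ => by rw [Finset.sum_comm]; simp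
        _ = ∑ x : ZMod 2, (1 / 2 : ℂ) := by
            refine Finset.sum_congr rfl fun x _ => ?_
            rw [Finset.sum_comm, ← hnorm x]
            exact Finset.sum_congr rfl fun a _ => Finset.sum_congr rfl fun y _ => mul_comm _ _
        _ = 1 := by simp [zmod_two_univ]
    exact_mod_cast h
  set P := codeProtocol B θ pick e
  set φ := fun l : (CIdx r ℓ k → B.Label) × ((Fin rest → Fin d) × (Fin rest → Fin d)) =>
    tens B e (fun i => B.eveVec ψ (l.1 i)) (tailVec ψ l.2) with hφ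
  set Φ := fun (w : Vec r ℓ k)
      (a : (CIdx r ℓ k → R) × ((Fin rest → Fin d) × (Fin rest → Fin d))) =>
    tens B e (fun i => phaseVec η (w i) (a.1 i)) (tailVec ψ a.2)
  set q : Vec r ℓ k → ℝ := fun w =>
    ∏ i, (if w i = 0 then 1 - (1 - f) / 2 else (1 - f) / 2) / 2
  have hmix : ∀ x a y, mixVec Φ Finset.univ x a y =
      tens B e (fun i => η (x i) (a.1 i)) (tailVec ψ a.2) y := by
    intro x a y
    simp only [mixVec, Φ, tens, sgn_eq_prod, ← mul_assoc, ← Finset.prod_mul_distrib,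
      ← Finset.sum_mul]
    congr 1
    rw [← Fintype.prod_sum (fun i (c : ZMod 2) =>
      bitSign (c * x i) * phaseVec η c (a.1 i) ((eveSplit B _ e m y).1 i))]
    exact Finset.prod_congr rfl fun i _ => (phaseVec_expand η _ _ _).symm
  have hqb : ∀ w, (Fintype.card (Vec r ℓ k) : ℝ) * q w = binom ((1 - f) / 2) w := by
    intro w
    simp only [q, binom, Finset.prod_div_distrib, Finset.prod_const, Finset.card_univ,
      Fintype.card_pi, ZMod.card, Nat.cast_pow, Nat.cast_ofNat]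
    field_simp
  have hq1 : (Fintype.card (Vec r ℓ k) : ℝ) * ∑ w, q w = 1 := by
    rw [Finset.mul_sum]; simp only [hqb]; exact sum_binom _
  have hne : Nonempty (P.EveIndex m) := by
    obtain ⟨u, v, s, t⟩ : Nonempty B.Label := by
      by_contra h
      rw [not_nonempty_iff] at h
      simp at htot
    obtain ⟨x, -⟩ := Finset.nonempty_of_sum_ne_zero (s := (Finset.univ : Finset (B.Label)))
      (f := fun l => nsq (B.eveVec ψ l)) (by rw [htot]; exact one_ne_zero)
    have hm : Nonempty (Fin m) ∨ n = 0 := by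
      rcases Nat.eq_zero_or_pos m with h | h
      · subst h
        exfalso
        have : ∑ x : Fin d × Fin d, ρ x x = 0 :=
          Finset.sum_eq_zero fun x _ => by rw [show x = (x.1, x.2) from rfl, hψ]; simp
        simp [this] at htr
      · exact Or.inl ⟨⟨0, h⟩⟩
    rcases hm with h | h
    · exact ⟨⟨fun _ => B.msg1 v, (fun _ => B.msg2 u (B.msg1 v), 0), fun _ => h.some⟩⟩
    · subst h
      exact ⟨⟨fun _ => B.msg1 v, (fun _ => B.msg2 u (B.msg1 v), 0), Fin.elim0⟩⟩
  obtain ⟨σ, hσ, hσt, hbound⟩ := key_bound θ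
    (fun s y => kbEquiv ℓ (key θ (y + pick (s + syn θ y)))) φ
    (fun l i => B.labA (l.1 i)) (fun l i => B.labB (l.1 i)) Φ q
    (fun x₀ y y' => by simp only [hmix]; exact tens_cond B e hcond x₀ y y')
    (tens_gram B e hψ htr (phaseVec_gram hnorm h01 h10)) hq1 T hT (eveEmb B θ pick e m) hne.some
  refine ⟨σ, hσ, hσt, traceNorm_le fun W hW => ?_⟩
  rw [outState_code]
  refine (hbound W hW).trans ?_
  rw [Finset.mul_sum (s := Tᶜ), Finset.sum_congr rfl fun w _ => hqb w]
  refine add_le_add (add_le_add (mul_le_mul_of_nonneg_left ?_ (by norm_num)) le_rfl) le_rfl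
  exact fail_le B hψ htr htot herr hδ0 hδ1 θ pick e

end Vale.P372
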