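import Vale.Agent.P372.Parallel

/-!
# Success blocks, their products, and the fallback combination
-/

noncomputable section

open scoped BigOperators ComplexOrder Classical
open Matrix

namespace Vale.P372

variable {d n₁ n₂ m : ℕ}

/-- Local instruments on `n` copies, some outcomes of which are successes carrying a bit. -/
structure Block (d n : ℕ) where
  U : Type
  V : Type
  SA : Type
  SB : Type
  [finU : Fintype U]
  [finV : Fintype V]
  [finSA : Fintype SA]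
  [finSB : Fintype SB]
  krausA : U → Matrix SA (Fin n → Fin d) ℂ
  krausB : V → Matrix SB (Fin n → Fin d) ℂ
  completeA : ∑ u, (krausA u)ᴴ * krausA u = 1
  completeB : ∑ v, (krausB v)ᴴ * krausB v = 1
  sA : U → Option (ZMod 2)
  sB : V → Option (ZMod 2)

attribute [instance] Block.finU Block.finV Block.finSA Block.finSB

/-- Branch labels of a block. -/
abbrev Block.Label {n : ℕ} (B : Block d n) : Type := B.U × B.V × B.SA × B.SB

/-- Eve's vector in one branch of local operators. -/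
def rawAmp {n : ℕ} {U V S T : Type} (KA : U → Matrix S (Fin n → Fin d) ℂ)
    (KB : V → Matrix T (Fin n → Fin d) ℂ) (ψ : Fin d → Fin d → Fin m → ℂ)
    (l : U × V × S × T) (z : Fin n → Fin m) : ℂ :=
  ∑ a : Fin n → Fin d, ∑ b : Fin n → Fin d,
    KA l.1 l.2.2.1 a * KB l.2.1 l.2.2.2 b * ∏ i, ψ (a i) (b i) (z i)

/-- Eve's vector in a branch of a block. -/
def Block.amp {n : ℕ} (B : Block d n) (ψ : Fin d → Fin d → Fin m → ℂ) (l : B.Label) :
    (Fin n → Fin m) → ℂ :=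
  rawAmp B.krausA B.krausB ψ l

/-- The inner product of two vectors. -/
def ip {ι : Type} [Fintype ι] (u v : ι → ℂ) : ℂ := ∑ i, starRingEnd ℂ (u i) * v i

/-- On success the bits are `(x, y)` with weight `a` for `x = y` and `e` otherwise; Eve's two
agreeing conditional states have overlap `F`. -/
def Block.Good {n : ℕ} (B : Block d n) (ρ : Matrix (Fin d × Fin d) (Fin d × Fin d) ℂ) (a e F : ℝ) :
    Prop :=
  ∀ (m : ℕ) (ψ : Fin d → Fin d → Fin m → ℂ), Purifies ψ ρ →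
    ∃ (R : Type) (_ : Fintype R) (ν : ZMod 2 → ZMod 2 → R → (Fin n → Fin m) → ℂ),
      (∀ x y z z', (∑ l, if B.sA l.1 = some x ∧ B.sB l.2.1 = some y
          then B.amp ψ l z * starRingEnd ℂ (B.amp ψ l z') else 0) =
        ∑ r, ν x y r z * starRingEnd ℂ (ν x y r z')) ∧
      (∀ x y, ∑ r, ip (ν x y r) (ν x y r) = ((if x = y then a else e : ℝ) : ℂ)) ∧
      ∑ r, ip (ν 0 0 r) (ν 1 1 r) = (F : ℂ) ∧
      ∑ l, nsq (B.amp ψ l) = 1

lemma ip_self {ι : Type} [Fintype ι] (u : ι → ℂ) : ip u u = (nsq u : ℂ) := by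
  simp [ip, nsq, Complex.conj_mul', Complex.ofReal_sum, Complex.ofReal_pow]

lemma ip_conj {ι : Type} [Fintype ι] (u v : ι → ℂ) : starRingEnd ℂ (ip u v) = ip v u := by
  simp [ip, map_sum, mul_comm]

lemma ip_equiv {ι κ : Type} [Fintype ι] [Fintype κ] (E : ι ≃ κ) (u v : κ → ℂ) :
    ip (fun i => u (E i)) (fun i => v (E i)) = ip u v :=
  Equiv.sum_comp E fun k => starRingEnd ℂ (u k) * v k

/-- A product vector. -/
def tp {α β : Type} (u : α → ℂ) (v : β → ℂ) : α × β → ℂ := fun p => u p.1 * v p.2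

lemma ip_tp {α β : Type} [Fintype α] [Fintype β] (u u' : α → ℂ) (v v' : β → ℂ) :
    ip (tp u v) (tp u' v') = ip u u' * ip v v' := by
  simp only [ip, tp, Fintype.sum_prod_type, Finset.sum_mul_sum, map_mul]
  exact Finset.sum_congr rfl fun a _ => Finset.sum_congr rfl fun b _ => by ring

lemma nsq_tp {α β : Type} [Fintype α] [Fintype β] (u : α → ℂ) (v : β → ℂ) :
    nsq (tp u v) = nsq u * nsq v := by
  have h := ip_tp u u v v
  rw [ip_self, ip_self, ip_self] at h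
  exact_mod_cast h

/-- Split the copies into the first and the last ones. -/
def splitApp (n₁ n₂ : ℕ) (α : Type) : (Fin (n₁ + n₂) → α) ≃ (Fin n₁ → α) × (Fin n₂ → α) :=
  (Fin.appendEquiv n₁ n₂).symm

/-- Kraus operators acting separately on the two groups of copies. -/
def tensKraus {U₁ U₂ S₁ S₂ : Type} (K₁ : U₁ → Matrix S₁ (Fin n₁ → Fin d) ℂ)
    (K₂ : U₂ → Matrix S₂ (Fin n₂ → Fin d) ℂ) (u : U₁ × U₂) :
    Matrix (S₁ × S₂) (Fin (n₁ + n₂) → Fin d) ℂ :=
  fun p a => K₁ u.1 p.1 (splitApp n₁ n₂ _ a).1 * K₂ u.2 p.2 (splitApp n₁ n₂ _ a).2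

lemma tensKraus_complete {U₁ U₂ S₁ S₂ : Type} [Fintype U₁] [Fintype U₂] [Fintype S₁] [Fintype S₂]
    (K₁ : U₁ → Matrix S₁ (Fin n₁ → Fin d) ℂ) (K₂ : U₂ → Matrix S₂ (Fin n₂ → Fin d) ℂ)
    (h₁ : ∑ u, (K₁ u)ᴴ * K₁ u = 1) (h₂ : ∑ u, (K₂ u)ᴴ * K₂ u = 1) :
    ∑ u : U₁ × U₂, (tensKraus K₁ K₂ u)ᴴ * tensKraus K₁ K₂ u = 1 := by
  ext a a'
  set A := splitApp n₁ n₂ (Fin d) a with hA
  set A' := splitApp n₁ n₂ (Fin d) a' with hA'
  have e₁ := congrFun (congrFun h₁ A.1) A'.1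
  have e₂ := congrFun (congrFun h₂ A.2) A'.2
  simp only [Matrix.sum_apply, mul_apply, conjTranspose_apply] at e₁ e₂ ⊢
  calc ∑ u : U₁ × U₂, ∑ s : S₁ × S₂, star (tensKraus K₁ K₂ u s a) * tensKraus K₁ K₂ u s a'
      = (∑ u, ∑ s, star (K₁ u s A.1) * K₁ u s A'.1) *
          ∑ u, ∑ s, star (K₂ u s A.2) * K₂ u s A'.2 := by
        simp only [Fintype.sum_prod_type, Finset.sum_mul_sum, tensKraus, ← hA, ← hA', star_mul']
        exact Finset.sum_congr rfl fun u _ => Finset.sum_congr rfl fun v _ =>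
          Finset.sum_congr rfl fun s _ => Finset.sum_congr rfl fun t _ => by ring
    _ = _ := by
        rw [e₁, e₂]
        simp only [one_apply]
        by_cases h : a = a'
        · simp [A, A', h]
        · rw [if_neg h]
          by_cases h1 : A.1 = A'.1
          · rw [if_pos h1, one_mul, if_neg]
            exact fun h2 => h ((splitApp n₁ n₂ (Fin d)).injective (Prod.ext h1 h2))
          · rw [if_neg h1, zero_mul]

lemma rawAmp_tens {U₁ U₂ V₁ V₂ S₁ S₂ T₁ T₂ : Type}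
    (KA₁ : U₁ → Matrix S₁ (Fin n₁ → Fin d) ℂ) (KB₁ : V₁ → Matrix T₁ (Fin n₁ → Fin d) ℂ)
    (KA₂ : U₂ → Matrix S₂ (Fin n₂ → Fin d) ℂ) (KB₂ : V₂ → Matrix T₂ (Fin n₂ → Fin d) ℂ)
    (ψ : Fin d → Fin d → Fin m → ℂ) (l₁ : U₁ × V₁ × S₁ × T₁) (l₂ : U₂ × V₂ × S₂ × T₂)
    (z : Fin (n₁ + n₂) → Fin m) :
    rawAmp (tensKraus KA₁ KA₂) (tensKraus KB₁ KB₂) ψ
        ((l₁.1, l₂.1), (l₁.2.1, l₂.2.1), (l₁.2.2.1, l₂.2.2.1), (l₁.2.2.2, l₂.2.2.2)) z =
      rawAmp KA₁ KB₁ ψ l₁ (splitApp n₁ n₂ _ z).1 * rawAmp KA₂ KB₂ ψ l₂ (splitApp n₁ n₂ _ z).2 := by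
  set Z := splitApp n₁ n₂ (Fin m) z with hZ
  have hz : z = Fin.append Z.1 Z.2 := ((splitApp n₁ n₂ (Fin m)).symm_apply_apply z).symm
  simp only [rawAmp, tensKraus]
  rw [← Equiv.sum_comp (splitApp n₁ n₂ (Fin d)).symm]
  simp only [← Equiv.sum_comp (splitApp n₁ n₂ (Fin d)).symm (fun b : Fin (n₁ + n₂) → Fin d => _),
    Equiv.apply_symm_apply, Fintype.sum_prod_type, Finset.sum_mul_sum]
  refine Finset.sum_congr rfl fun a _ => Finset.sum_congr rfl fun a' _ => ?_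
  refine Finset.sum_congr rfl fun b _ => Finset.sum_congr rfl fun b' _ => ?_
  rw [Fin.prod_univ_add]
  rw [hz]
  simp only [splitApp, Equiv.symm_symm, Fin.appendEquiv, Equiv.coe_fn_mk, Fin.append_left,
    Fin.append_right]
  ring

/-- Regrouping of labels. -/
def pairLabel (U₁ U₂ V₁ V₂ S₁ S₂ T₁ T₂ : Type) :
    (U₁ × V₁ × S₁ × T₁) × (U₂ × V₂ × S₂ × T₂) ≃ (U₁ × U₂) × (V₁ × V₂) × (S₁ × S₂) × (T₁ × T₂) where
  toFun p := ((p.1.1, p.2.1), (p.1.2.1, p.2.2.1), (p.1.2.2.1, p.2.2.2.1), (p.1.2.2.2, p.2.2.2.2))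
  invFun q := ((q.1.1, q.2.1.1, q.2.2.1.1, q.2.2.2.1), (q.1.2, q.2.1.2, q.2.2.1.2, q.2.2.2.2))
  left_inv _ := rfl
  right_inv _ := rfl

/-- Both succeed with the same bit. -/
def agreeBit : Option (ZMod 2) → Option (ZMod 2) → Option (ZMod 2)
  | some x, some y => if x = y then some x else none
  | _, _ => none

lemma agreeBit_eq (p q : Option (ZMod 2)) (x : ZMod 2) :
    agreeBit p q = some x ↔ p = some x ∧ q = some x := by
  revert p q x
  decide

/-- Two blocks side by side. -/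
abbrev Block.prod (B₁ : Block d n₁) (B₂ : Block d n₂) : Block d (n₁ + n₂) where
  U := B₁.U × B₂.U
  V := B₁.V × B₂.V
  SA := B₁.SA × B₂.SA
  SB := B₁.SB × B₂.SB
  krausA := tensKraus B₁.krausA B₂.krausA
  krausB := tensKraus B₁.krausB B₂.krausB
  completeA := tensKraus_complete _ _ B₁.completeA B₂.completeA
  completeB := tensKraus_complete _ _ B₁.completeB B₂.completeB
  sA u := agreeBit (B₁.sA u.1) (B₂.sA u.2)
  sB v := agreeBit (B₁.sB v.1) (B₂.sB v.2)

variable {ρ : Matrix (Fin d × Fin d) (Fin d × Fin d) ℂ}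

theorem Block.Good.prod {B₁ : Block d n₁} {B₂ : Block d n₂} {a₁ e₁ F₁ a₂ e₂ F₂ : ℝ}
    (h₁ : B₁.Good ρ a₁ e₁ F₁) (h₂ : B₂.Good ρ a₂ e₂ F₂) :
    (B₁.prod B₂).Good ρ (a₁ * a₂) (e₁ * e₂) (F₁ * F₂) := by
  intro m ψ hψ
  obtain ⟨R₁, _, ν₁, c₁, q₁, f₁, t₁⟩ := h₁ m ψ hψ
  obtain ⟨R₂, _, ν₂, c₂, q₂, f₂, t₂⟩ := h₂ m ψ hψ
  set S := splitApp n₁ n₂ (Fin m)
  have hamp : ∀ p : B₁.Label × B₂.Label,
      (B₁.prod B₂).amp ψ (pairLabel _ _ _ _ _ _ _ _ p) =
        fun z => tp (B₁.amp ψ p.1) (B₂.amp ψ p.2) (S z) := fun p =>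
    funext fun z => rawAmp_tens _ _ _ _ ψ p.1 p.2 z
  refine ⟨R₁ × R₂, inferInstance, fun x y r z => tp (ν₁ x y r.1) (ν₂ x y r.2) (S z), ?_, ?_, ?_, ?_⟩
  · intro x y z z'
    rw [← Equiv.sum_comp (pairLabel B₁.U B₂.U B₁.V B₂.V B₁.SA B₂.SA B₁.SB B₂.SB)]
    simp only [hamp, Fintype.sum_prod_type (α₁ := R₁)]
    simp only [tp, map_mul]
    calc _ = ∑ p : B₁.Label × B₂.Label,
          (if B₁.sA p.1.1 = some x ∧ B₁.sB p.1.2.1 = some y then
            B₁.amp ψ p.1 (S z).1 * starRingEnd ℂ (B₁.amp ψ p.1 (S z').1) else 0) *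
          (if B₂.sA p.2.1 = some x ∧ B₂.sB p.2.2.1 = some y then
            B₂.amp ψ p.2 (S z).2 * starRingEnd ℂ (B₂.amp ψ p.2 (S z').2) else 0) := by
          refine Finset.sum_congr rfl fun p _ => ?_
          simp only [pairLabel, Equiv.coe_fn_mk, agreeBit_eq]
          split_ifs <;> first | ring1 | (exfalso; tauto)
      _ = (∑ r, ν₁ x y r (S z).1 * starRingEnd ℂ (ν₁ x y r (S z').1)) *
            ∑ r, ν₂ x y r (S z).2 * starRingEnd ℂ (ν₂ x y r (S z').2) := by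
          rw [← c₁, ← c₂, Finset.sum_mul_sum, ← Fintype.sum_prod_type']
      _ = _ := by
          rw [Finset.sum_mul_sum]
          exact Finset.sum_congr rfl fun r _ => Finset.sum_congr rfl fun r' _ => by ring
  · intro x y
    simp only [Fintype.sum_prod_type, ip_equiv S, ip_tp, ← Finset.sum_mul_sum, q₁, q₂]
    split_ifs <;> push_cast <;> ring
  · simp only [Fintype.sum_prod_type, ip_equiv S, ip_tp, ← Finset.sum_mul_sum, f₁, f₂]
    push_cast
    ring
  · rw [← Equiv.sum_comp (pairLabel B₁.U B₂.U B₁.V B₂.V B₁.SA B₂.SA B₁.SB B₂.SB)]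
    have hn : ∀ (u : (Fin n₁ → Fin m) × (Fin n₂ → Fin m) → ℂ), nsq (fun z => u (S z)) = nsq u :=
      fun u => Equiv.sum_comp S fun w => ‖u w‖ ^ 2
    simp only [hamp, hn, nsq_tp, Fintype.sum_prod_type (α₁ := B₁.Label), ← Finset.sum_mul_sum, t₁, t₂,
      one_mul]

/-- A block followed by a bit protocol, which is used when the block fails. -/
abbrev fallback (B : Block d n₁) (Q : Protocol d n₂ 1) : Protocol d (n₁ + n₂) 1 where
  U := B.U × Q.U
  V := B.V × Q.V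
  SA := B.SA × Q.SA
  SB := B.SB × Q.SB
  T1 := Bool × Q.T1
  T2 := Bool × Q.T2
  krausA := tensKraus B.krausA Q.krausA
  krausB := tensKraus B.krausB Q.krausB
  completeA := tensKraus_complete _ _ B.completeA Q.completeA
  completeB := tensKraus_complete _ _ B.completeB Q.completeB
  msg1 v := ((B.sB v.1).isSome, Q.msg1 v.2)
  msg2 u t := ((B.sA u.1).isSome && t.1, Q.msg2 u.2 t.2)
  keyA u t :=
    match B.sA u.1, t.1 with
    | some x, true => fun _ => finTwoEquiv x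
    | _, _ => Q.keyA u.2 t.2
  keyB v t :=
    match B.sB v.1, t.1 with
    | some y, true => fun _ => finTwoEquiv y
    | _, _ => Q.keyB v.2 t.2

/-- Eve's coordinates in the fallback protocol. -/
def fallbackEve (B : Block d n₁) (Q : Protocol d n₂ 1) (m : ℕ) :
    (fallback B Q).EveIndex m ≃ (Bool × Bool × (Fin n₁ → Fin m)) × Q.EveIndex m where
  toFun z := ((z.1.1, z.2.1.1, (splitApp n₁ n₂ _ z.2.2).1), (z.1.2, z.2.1.2, (splitApp n₁ n₂ _ z.2.2).2))
  invFun p := ((p.1.1, p.2.1), (p.1.2.1, p.2.2.1), (splitApp n₁ n₂ _).symm (p.1.2.2, p.2.2.2))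
  left_inv z := by simp
  right_inv p := by simp

/-- Both sides of the block succeed. -/
def Block.joint (B : Block d n₁) (l : B.Label) : Bool := (B.sA l.1).isSome && (B.sB l.2.1).isSome

/-- Eve's block vector next to the two flags. -/
def Block.flagVec (B : Block d n₁) (ψ : Fin d → Fin d → Fin m → ℂ) (l : B.Label) :
    Bool × Bool × (Fin n₁ → Fin m) → ℂ :=
  fun z => if z.1 = (B.sB l.2.1).isSome ∧ z.2.1 = B.joint l then B.amp ψ l z.2.2 else 0

/-- A vector next to two flags. -/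
def flagged (b c : Bool) (v : (Fin n₁ → Fin m) → ℂ) : Bool × Bool × (Fin n₁ → Fin m) → ℂ :=
  fun z => if z.1 = b ∧ z.2.1 = c then v z.2.2 else 0

lemma ip_flagged (b c : Bool) (u v : (Fin n₁ → Fin m) → ℂ) :
    ip (flagged b c u) (flagged b c v) = ip u v := by
  cases b <;> cases c <;> simp [ip, flagged, Fintype.sum_prod_type]

lemma nsq_flagVec (B : Block d n₁) (ψ : Fin d → Fin d → Fin m → ℂ) (l : B.Label) :
    nsq (B.flagVec ψ l) = nsq (B.amp ψ l) := by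
  have h : B.flagVec ψ l = flagged (B.sB l.2.1).isSome (B.joint l) (B.amp ψ l) := rfl
  have h' := ip_flagged (B.sB l.2.1).isSome (B.joint l) (B.amp ψ l) (B.amp ψ l)
  rw [← h, ip_self, ip_self] at h'
  exact_mod_cast h'

lemma BitGood.total {B : Protocol d n₂ 1} {f δ : ℝ} (hB : BitGood B ρ f δ)
    {ψ : Fin d → Fin d → Fin m → ℂ} (hψ : Purifies ψ ρ) : ∑ l, nsq (B.eveVec ψ l) = 1 := by
  obtain ⟨R, _, η, hcond, hnorm, -, -, -⟩ := hB m ψ hψ
  have h : ((∑ l, nsq (B.eveVec ψ l) : ℝ) : ℂ) = 1 := by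
    calc ((∑ l, nsq (B.eveVec ψ l) : ℝ) : ℂ)
        = ∑ l, ∑ y, B.eveVec ψ l y * starRingEnd ℂ (B.eveVec ψ l y) := by
          simp only [Complex.ofReal_sum, nsq, Complex.ofReal_pow, Complex.mul_conj']
      _ = ∑ x, ∑ y, ∑ a, η x a y * starRingEnd ℂ (η x a y) := by
          simp only [← hcond]
          rw [Finset.sum_comm]
          conv_rhs => rw [Finset.sum_comm]
          exact Finset.sum_congr rfl fun y _ => by rw [Finset.sum_comm]; simp
      _ = ∑ x : ZMod 2, (1 / 2 : ℂ) := by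
          refine Finset.sum_congr rfl fun x _ => ?_
          rw [Finset.sum_comm, ← hnorm x]
          exact Finset.sum_congr rfl fun a _ => Finset.sum_congr rfl fun y _ => mul_comm _ _
      _ = 1 := by simp [ZMod.card]
  exact_mod_cast h

end Vale.P372
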