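import Vale.Agent.P372.Defs

/-!
# Systematic random linear codes over `ZMod 2`
-/

noncomputable section

open scoped BigOperators

namespace Vale.P372

lemma zmod_two_eq_one : ∀ a : ZMod 2, a ≠ 0 → a = 1 := by decide

lemma sign_mul_sign (a b : ZMod 2) :
    (if a + b = 0 then (1 : ℂ) else -1) = (if a = 0 then 1 else -1) * (if b = 0 then 1 else -1) := by
  have h : ∀ a : ZMod 2, a = 0 ∨ a = 1 := by decide
  have h2 : (1 : ZMod 2) + 1 = 0 := rfl
  rcases h a with rfl | rfl <;> rcases h b with rfl | rfl <;> simp [h2]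

open scoped Classical

/-- Index set of a block: syndrome part, key part, remainder. -/
abbrev CIdx (r ℓ k : ℕ) : Type := Fin r ⊕ Fin ℓ ⊕ Fin k

/-- A bit vector on a block. -/
abbrev Vec (r ℓ k : ℕ) : Type := CIdx r ℓ k → ZMod 2

/-- Parameters of a code. -/
abbrev Code (r ℓ k : ℕ) : Type :=
  (Fin r → Fin ℓ → ZMod 2) × (Fin r → Fin k → ZMod 2) × (Fin ℓ → Fin k → ZMod 2)

variable {r ℓ k : ℕ}

/-- Syndrome. -/
def syn (θ : Code r ℓ k) (x : Vec r ℓ k) : Fin r → ZMod 2 := fun i =>
  x (.inl i) + (∑ j, θ.1 i j * x (.inr (.inl j))) + ∑ c, θ.2.1 i c * x (.inr (.inr c))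

/-- Key. -/
def key (θ : Code r ℓ k) (x : Vec r ℓ k) : Fin ℓ → ZMod 2 := fun j =>
  x (.inr (.inl j)) + ∑ c, θ.2.2 j c * x (.inr (.inr c))

/-- Free part. -/
def free (x : Vec r ℓ k) : Fin k → ZMod 2 := fun c => x (.inr (.inr c))

/-- The vector with given syndrome, key and free part. -/
def solve (θ : Code r ℓ k) (s : Fin r → ZMod 2) (z : Fin ℓ → ZMod 2) (c : Fin k → ZMod 2) :
    Vec r ℓ k :=
  Sum.elim
    (fun i => s i + (∑ j, θ.1 i j * (z j + ∑ q, θ.2.2 j q * c q)) + ∑ q, θ.2.1 i q * c q)
    (Sum.elim (fun j => z j + ∑ q, θ.2.2 j q * c q) c)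

lemma two_add (a : ZMod 2) : a + a = 0 := CharTwo.add_self_eq_zero a

lemma syn_solve (θ : Code r ℓ k) (s z c) : syn θ (solve θ s z c) = s := by
  ext i
  simp only [syn, solve, Sum.elim_inl, Sum.elim_inr]
  generalize (∑ j, θ.1 i j * (z j + ∑ q, θ.2.2 j q * c q)) = A
  generalize (∑ q, θ.2.1 i q * c q) = B
  calc s i + A + B + A + B = s i + (A + A) + (B + B) := by abel
    _ = s i := by rw [two_add, two_add, add_zero, add_zero]

lemma key_solve (θ : Code r ℓ k) (s z c) : key θ (solve θ s z c) = z := by
  ext j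
  simp only [key, solve, Sum.elim_inl, Sum.elim_inr]
  rw [add_assoc, two_add, add_zero]

lemma free_solve (θ : Code r ℓ k) (s z c) : free (solve θ s z c) = c := rfl

lemma solve_self (θ : Code r ℓ k) (x : Vec r ℓ k) :
    solve θ (syn θ x) (key θ x) (free x) = x := by
  funext i
  have hz : ∀ j, key θ x j + ∑ q, θ.2.2 j q * free x q = x (.inr (.inl j)) := fun j => by
    simp only [key, free]
    rw [add_assoc, two_add, add_zero]
  rcases i with i | j | c
  · simp only [solve, Sum.elim_inl]
    simp only [hz]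
    simp only [syn, free]
    generalize (∑ j, θ.1 i j * x (Sum.inr (Sum.inl j))) = A
    generalize (∑ q, θ.2.1 i q * x (Sum.inr (Sum.inr q))) = B
    calc x (Sum.inl i) + A + B + A + B = x (Sum.inl i) + (A + A) + (B + B) := by abel
      _ = x (Sum.inl i) := by rw [two_add, two_add, add_zero, add_zero]
  · simp only [solve, Sum.elim_inl, Sum.elim_inr]
    exact hz j
  · rfl

/-- A block is the same as its syndrome, key and free part. -/
def splitEquiv (θ : Code r ℓ k) :
    Vec r ℓ k ≃ (Fin ℓ → ZMod 2) × (Fin r → ZMod 2) × (Fin k → ZMod 2) where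
  toFun x := (key θ x, syn θ x, free x)
  invFun p := solve θ p.2.1 p.1 p.2.2
  left_inv := solve_self θ
  right_inv := fun ⟨z, s, c⟩ => by simp [key_solve, syn_solve, free_solve]

lemma syn_add (θ : Code r ℓ k) (x y : Vec r ℓ k) : syn θ (x + y) = syn θ x + syn θ y := by
  ext i
  simp only [syn, Pi.add_apply, mul_add, Finset.sum_add_distrib]
  abel

/-- Dot product. -/
def dot (v x : Vec r ℓ k) : ZMod 2 := ∑ i, v i * x i

/-- Character sign. -/
def sgn (v x : Vec r ℓ k) : ℂ := if dot v x = 0 then 1 else -1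

lemma dot_add_right (v x y : Vec r ℓ k) : dot v (x + y) = dot v x + dot v y := by
  simp [dot, mul_add, Finset.sum_add_distrib]

lemma sgn_add_right (v x y : Vec r ℓ k) : sgn v (x + y) = sgn v x * sgn v y := by
  unfold sgn
  rw [dot_add_right]
  exact sign_mul_sign _ _

lemma dot_comm (v x : Vec r ℓ k) : dot v x = dot x v := by simp [dot, mul_comm]

lemma sgn_add_left (v w x : Vec r ℓ k) : sgn (v + w) x = sgn v x * sgn w x := by
  have h := sgn_add_right x v w
  simp only [sgn, dot_comm x] at h
  exact h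

lemma sgn_zero (x : Vec r ℓ k) : sgn 0 x = 1 := by simp [sgn, dot]

lemma conj_sgn (v x : Vec r ℓ k) : starRingEnd ℂ (sgn v x) = sgn v x := by
  unfold sgn; split_ifs <;> simp

/-- `v` is orthogonal to the kernel of syndrome and key. -/
def InDual (θ : Code r ℓ k) (v : Vec r ℓ k) : Prop := ∀ c, dot v (solve θ 0 0 c) = 0

lemma solve_add (θ : Code r ℓ k) (s z c s' z' c') :
    solve θ (s + s') (z + z') (c + c') = solve θ s z c + solve θ s' z' c' := by
  funext i
  rcases i with i | j | q <;>
    simp only [solve, Sum.elim_inl, Sum.elim_inr, Pi.add_apply, mul_add, Finset.sum_add_distrib,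
      Finset.mul_sum] <;> abel

lemma sum_sgn_eq_zero {θ : Code r ℓ k} {v : Vec r ℓ k} (hv : ¬ InDual θ v) (s z) :
    ∑ c, sgn v (solve θ s z c) = 0 := by
  simp only [InDual, not_forall] at hv
  obtain ⟨c₀, hc₀⟩ := hv
  have hneg : sgn v (solve θ 0 0 c₀) = -1 := by simp [sgn, hc₀]
  have h : ∑ c, sgn v (solve θ s z c) = - ∑ c, sgn v (solve θ s z c) := by
    conv_lhs => rw [← Equiv.sum_comp (Equiv.addRight c₀)]
    rw [← Finset.sum_neg_distrib]
    refine Finset.sum_congr rfl fun c _ => ?_
    rw [Equiv.coe_addRight, show solve θ s z (c + c₀) = solve θ s z c + solve θ 0 0 c₀ by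
      rw [← solve_add, add_zero, add_zero], sgn_add_right, hneg]
    ring
  exact CharZero.eq_neg_self_iff.1 h

lemma card_zero_mul_le {α β : Type} [Fintype α] [Fintype β] [DecidableEq β] (f : α → β) (s₀ : β)
    (sh : β → α → α) (hinj : ∀ s, Function.Injective (sh s))
    (hf : ∀ s a, f a = s₀ → f (sh s a) = s) :
    (Finset.univ.filter fun a => f a = s₀).card * Fintype.card β ≤ Fintype.card α := by
  have h := Finset.card_le_card_of_injOn (fun p : α × β => sh p.2 p.1)
    (s := (Finset.univ.filter fun a => f a = s₀) ×ˢ (Finset.univ : Finset β))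
    (t := (Finset.univ : Finset α)) (fun _ _ => Finset.mem_univ _) ?_
  · rwa [Finset.card_product, Finset.card_univ, Finset.card_univ] at h
  · rintro ⟨a, s⟩ ha ⟨a', s'⟩ ha' he
    simp only [Finset.coe_product, Set.mem_prod, Finset.coe_filter, Finset.mem_univ, true_and,
      Set.mem_ofPred_eq] at ha ha'
    dsimp only at he
    have hs : s = s' := by rw [← hf s a ha.1, ← hf s' a' ha'.1, he]
    subst hs
    rw [hinj s he]

lemma card_fun_zmod (n : ℕ) : Fintype.card (Fin n → ZMod 2) = 2 ^ n := by
  simp [Fintype.card_pi, ZMod.card]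

lemma syn_collision {v : Vec r ℓ k} (hv : v ≠ 0) :
    (Finset.univ.filter fun θ : Code r ℓ k => syn θ v = 0).card * 2 ^ r ≤
      Fintype.card (Code r ℓ k) := by
  by_cases hb : ∃ j, v (.inr (.inl j)) ≠ 0
  · obtain ⟨j₀, hj₀⟩ := hb
    have h1 : v (.inr (.inl j₀)) = 1 := by
      exact zmod_two_eq_one _ hj₀
    rw [← card_fun_zmod r]
    refine card_zero_mul_le (fun θ : Code r ℓ k => syn θ v) 0
      (fun s θ => (fun i => θ.1 i + Pi.single j₀ (s i), θ.2.1, θ.2.2)) (fun s θ θ' h => ?_)
      (fun s θ h => ?_)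
    · simp only [Prod.mk.injEq] at h
      exact Prod.ext (funext fun i => add_right_cancel (congrFun h.1 i))
        (Prod.ext h.2.1 h.2.2)
    · ext i
      have hi := congrFun h i
      simp only [syn, Pi.zero_apply] at hi
      simp only [syn, Pi.add_apply, add_mul, Finset.sum_add_distrib]
      simp only [Pi.single_apply, ite_mul, zero_mul, Finset.sum_ite_eq', Finset.mem_univ, if_true,
        h1, mul_one]
      linear_combination hi
  · simp only [not_exists, not_not] at hb
    by_cases hc : ∃ c, v (.inr (.inr c)) ≠ 0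
    · obtain ⟨j₀, hj₀⟩ := hc
      have h1 : v (.inr (.inr j₀)) = 1 := by
        exact zmod_two_eq_one _ hj₀
      rw [← card_fun_zmod r]
      refine card_zero_mul_le (fun θ : Code r ℓ k => syn θ v) 0
        (fun s θ => (θ.1, fun i => θ.2.1 i + Pi.single j₀ (s i), θ.2.2)) (fun s θ θ' h => ?_)
        (fun s θ h => ?_)
      · simp only [Prod.mk.injEq] at h
        exact Prod.ext h.1
          (Prod.ext (funext fun i => add_right_cancel (congrFun h.2.1 i)) h.2.2)
      · ext i
        have hi := congrFun h i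
        simp only [syn, Pi.zero_apply] at hi
        simp only [syn, Pi.add_apply, add_mul, Finset.sum_add_distrib]
        simp only [Pi.single_apply, ite_mul, zero_mul, Finset.sum_ite_eq', Finset.mem_univ,
          if_true, h1, mul_one]
        linear_combination hi
    · simp only [not_exists, not_not] at hc
      rw [Finset.filter_false_of_mem]
      · simp
      · intro θ _ h
        refine hv (funext fun i => ?_)
        rcases i with i | j | c
        · simpa [syn, hb, hc] using congrFun h i
        · exact hb j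
        · exact hc c

/-- The linear form `c ↦ dot v (solve θ 0 0 c)`, coordinatewise. -/
def coeff (θ : Code r ℓ k) (v : Vec r ℓ k) : Fin k → ZMod 2 := fun q =>
  dot v (solve θ 0 0 (Pi.single q 1))

lemma coeff_eq (θ : Code r ℓ k) (v : Vec r ℓ k) (q : Fin k) :
    coeff θ v q = (∑ i, v (.inl i) * ((∑ j, θ.1 i j * θ.2.2 j q) + θ.2.1 i q)) +
      ((∑ j, v (.inr (.inl j)) * θ.2.2 j q) + v (.inr (.inr q))) := by
  simp [coeff, dot, solve, Fintype.sum_sum_type, Pi.single_apply]

lemma dual_collision {v : Vec r ℓ k} (hv : v ≠ 0) :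
    (Finset.univ.filter fun θ : Code r ℓ k => InDual θ v).card * 2 ^ k ≤
      Fintype.card (Code r ℓ k) := by
  have hsub : (Finset.univ.filter fun θ : Code r ℓ k => InDual θ v) ⊆
      Finset.univ.filter fun θ : Code r ℓ k => coeff θ v = 0 := by
    intro θ h
    simp only [Finset.mem_filter, Finset.mem_univ, true_and] at h ⊢
    exact funext fun q => h _
  refine (Nat.mul_le_mul_right _ (Finset.card_le_card hsub)).trans ?_
  by_cases ha : ∃ i, v (.inl i) ≠ 0
  · obtain ⟨j₀, hj₀⟩ := ha
    have h1 : v (.inl j₀) = 1 := by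
      exact zmod_two_eq_one _ hj₀
    rw [← card_fun_zmod k]
    refine card_zero_mul_le (fun θ : Code r ℓ k => coeff θ v) 0
      (fun s θ => (θ.1, θ.2.1 + Pi.single j₀ s, θ.2.2)) (fun s θ θ' h => ?_) (fun s θ h => ?_)
    · simp only [Prod.mk.injEq] at h
      exact Prod.ext h.1 (Prod.ext (add_right_cancel h.2.1) h.2.2)
    · ext q
      have hi := congrFun h q
      rw [coeff_eq] at hi
      rw [coeff_eq]
      have e : ∀ i, (θ.2.1 + Pi.single j₀ s : Fin r → Fin k → ZMod 2) i q =
          θ.2.1 i q + if i = j₀ then s q else 0 := by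
        intro i
        by_cases hij : i = j₀ <;> simp [hij]
      simp only [e, mul_add, Finset.sum_add_distrib, mul_ite, mul_zero, Finset.sum_ite_eq',
        Finset.mem_univ, if_true, h1, one_mul, Pi.zero_apply] at hi ⊢
      linear_combination hi
  · simp only [not_exists, not_not] at ha
    by_cases hb : ∃ j, v (.inr (.inl j)) ≠ 0
    · obtain ⟨j₀, hj₀⟩ := hb
      have h1 : v (.inr (.inl j₀)) = 1 := by
        exact zmod_two_eq_one _ hj₀
      rw [← card_fun_zmod k]
      refine card_zero_mul_le (fun θ : Code r ℓ k => coeff θ v) 0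
        (fun s θ => (θ.1, θ.2.1, θ.2.2 + Pi.single j₀ s)) (fun s θ θ' h => ?_) (fun s θ h => ?_)
      · simp only [Prod.mk.injEq] at h
        exact Prod.ext h.1 (Prod.ext h.2.1 (add_right_cancel h.2.2))
      · ext q
        have hi := congrFun h q
        rw [coeff_eq] at hi
        rw [coeff_eq]
        have e : ∀ i, (θ.2.2 + Pi.single j₀ s : Fin ℓ → Fin k → ZMod 2) i q =
            θ.2.2 i q + if i = j₀ then s q else 0 := by
          intro i
          by_cases hij : i = j₀ <;> simp [hij]
        simp only [ha, zero_mul, Finset.sum_const_zero, zero_add, e, mul_add,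
          Finset.sum_add_distrib, mul_ite, mul_zero, Finset.sum_ite_eq', Finset.mem_univ, if_true,
          h1, one_mul, Pi.zero_apply] at hi ⊢
        linear_combination hi
    · simp only [not_exists, not_not] at hb
      rw [Finset.filter_false_of_mem]
      · simp
      · intro θ _ h
        refine hv (funext fun i => ?_)
        rcases i with i | j | c
        · exact ha i
        · exact hb j
        · simpa [coeff_eq, ha, hb] using congrFun h c

end Vale.P372
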