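import Vale.Agent.P372.Codes

/-!
# Choice of a good code by averaging
-/

noncomputable section

open scoped BigOperators Classical

namespace Vale.P372

variable {r ℓ k : ℕ}

/-- Vectors of weight at least `t`. -/
def typical {α : Type} [Fintype α] (p : α → ℝ) (t : ℝ) : Finset α :=
  Finset.univ.filter fun u => t ≤ p u

lemma card_typical_le {α : Type} [Fintype α] {p : α → ℝ} {t : ℝ} (hp : ∀ u, 0 ≤ p u)
    (h1 : ∑ u, p u ≤ 1) (ht : 0 < t) : ((typical p t).card : ℝ) ≤ 1 / t := by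
  rw [le_div_iff₀ ht]
  calc ((typical p t).card : ℝ) * t = ∑ _u ∈ typical p t, t := by simp
    _ ≤ ∑ u ∈ typical p t, p u := Finset.sum_le_sum fun u hu => (Finset.mem_filter.1 hu).2
    _ ≤ ∑ u, p u :=
        Finset.sum_le_sum_of_subset_of_nonneg (Finset.subset_univ _) fun u _ _ => hp u
    _ ≤ 1 := h1

lemma sum_atypical_le {α : Type} [Fintype α] {p : α → ℝ} {t : ℝ} (hp : ∀ u, 0 ≤ p u) :
    ∑ u ∈ (typical p t)ᶜ, p u ≤ √t * ∑ u, √(p u) := by
  calc ∑ u ∈ (typical p t)ᶜ, p u ≤ ∑ u ∈ (typical p t)ᶜ, √t * √(p u) := by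
        refine Finset.sum_le_sum fun u hu => ?_
        have hlt : p u ≤ t := by
          simp only [typical, Finset.compl_filter, Finset.mem_filter, Finset.mem_univ, true_and,
            not_le] at hu
          exact hu.le
        calc p u = √(p u) * √(p u) := (Real.mul_self_sqrt (hp u)).symm
          _ ≤ √t * √(p u) := mul_le_mul_of_nonneg_right (Real.sqrt_le_sqrt hlt) (Real.sqrt_nonneg _)
    _ ≤ ∑ u, √t * √(p u) :=
        Finset.sum_le_sum_of_subset_of_nonneg (Finset.subset_univ _) fun u _ _ =>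
          mul_nonneg (Real.sqrt_nonneg _) (Real.sqrt_nonneg _)
    _ = _ := (Finset.mul_sum _ _ _).symm

/-- Mass of the typical vectors related to another typical vector. -/
def conflictMass {α : Type} (T : Finset α) (p : α → ℝ) (rel : α → α → Prop) : ℝ :=
  ∑ u ∈ T, if ∃ u' ∈ T, u ≠ u' ∧ rel u u' then p u else 0

lemma sum_conflict_le {Θ : Type} [Fintype Θ] {c : ℕ} {p : Vec r ℓ k → ℝ} {t : ℝ}
    (Rel : Θ → Vec r ℓ k → Prop)
    (hRel : ∀ v, v ≠ 0 → (Finset.univ.filter fun θ => Rel θ v).card * 2 ^ c ≤ Fintype.card Θ)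
    (hp : ∀ u, 0 ≤ p u) (h1 : ∑ u, p u ≤ 1) (ht : 0 < t) :
    ∑ θ : Θ, conflictMass (typical p t) p (fun u u' => Rel θ (u + u')) ≤
      (Fintype.card Θ : ℝ) * (1 / (t * 2 ^ c)) := by
  have hstep : ∀ θ, conflictMass (typical p t) p (fun u u' => Rel θ (u + u')) ≤
      ∑ u ∈ typical p t, ∑ u' ∈ typical p t, if u ≠ u' ∧ Rel θ (u + u') then p u else 0 := by
    intro θ
    unfold conflictMass
    refine Finset.sum_le_sum fun u _ => ?_
    have h0 : ∀ u' ∈ typical p t, 0 ≤ (if u ≠ u' ∧ Rel θ (u + u') then p u else 0) :=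
      fun u' _ => by split_ifs <;> simp [hp u]
    split_ifs with h
    · obtain ⟨u', hu', h'⟩ := h
      exact le_trans (by rw [if_pos h']) (Finset.single_le_sum h0 hu')
    · exact Finset.sum_nonneg h0
  refine le_trans (Finset.sum_le_sum fun θ _ => hstep θ) ?_
  calc ∑ θ : Θ, ∑ u ∈ typical p t, ∑ u' ∈ typical p t,
        (if u ≠ u' ∧ Rel θ (u + u') then p u else 0)
    _ = ∑ u ∈ typical p t, ∑ u' ∈ typical p t,
        ∑ θ : Θ, (if u ≠ u' ∧ Rel θ (u + u') then p u else 0) := by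
      rw [Finset.sum_comm]
      exact Finset.sum_congr rfl fun u _ => Finset.sum_comm
    _ ≤ ∑ u ∈ typical p t, ∑ _u' ∈ typical p t, (Fintype.card Θ : ℝ) / 2 ^ c * p u := by
      refine Finset.sum_le_sum fun u _ => Finset.sum_le_sum fun u' _ => ?_
      by_cases hne : u = u'
      · simp only [hne, ne_eq, not_true_eq_false, false_and, if_false, Finset.sum_const_zero]
        exact mul_nonneg (by positivity) (hp _)
      · have hv : u + u' ≠ 0 := fun h => hne (funext fun i => by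
          have hi : u i + u' i = 0 := congrFun h i
          calc u i = u i + (u' i + u' i) := by rw [two_add, add_zero]
            _ = u' i := by rw [← add_assoc, hi, zero_add])
        simp only [ne_eq, hne, not_false_eq_true, true_and]
        rw [← Finset.sum_filter, Finset.sum_const, nsmul_eq_mul]
        refine mul_le_mul_of_nonneg_right ?_ (hp u)
        rw [le_div_iff₀ (by positivity)]
        exact_mod_cast hRel _ hv
    _ = ((typical p t).card : ℝ) * ((Fintype.card Θ : ℝ) / 2 ^ c) * ∑ u ∈ typical p t, p u := by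
      rw [Finset.mul_sum]
      refine Finset.sum_congr rfl fun u _ => ?_
      rw [Finset.sum_const, nsmul_eq_mul]
      ring
    _ ≤ 1 / t * ((Fintype.card Θ : ℝ) / 2 ^ c) * 1 := by
      refine mul_le_mul (mul_le_mul_of_nonneg_right (card_typical_le hp h1 ht) (by positivity))
        ((Finset.sum_le_sum_of_subset_of_nonneg (Finset.subset_univ _) fun u _ _ => hp u).trans h1)
        (Finset.sum_nonneg fun u _ => hp u) (by positivity)
    _ = _ := by field_simp

theorem exists_code {p₁ p₂ : Vec r ℓ k → ℝ} {t₁ t₂ : ℝ} (hp₁ : ∀ u, 0 ≤ p₁ u)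
    (hs₁ : ∑ u, p₁ u ≤ 1) (ht₁ : 0 < t₁) (hp₂ : ∀ u, 0 ≤ p₂ u) (hs₂ : ∑ u, p₂ u ≤ 1)
    (ht₂ : 0 < t₂) :
    ∃ (θ : Code r ℓ k) (pick : (Fin r → ZMod 2) → Vec r ℓ k) (T : Finset (Vec r ℓ k)),
      (∀ w ∈ T, ∀ w' ∈ T, w ≠ w' → ¬ InDual θ (w + w')) ∧
      (∑ u, if pick (syn θ u) ≠ u then p₁ u else 0) ≤
        √t₁ * (∑ u, √(p₁ u)) + 1 / (t₁ * 2 ^ r) + 1 / (t₂ * 2 ^ k) ∧
      ∑ w ∈ Tᶜ, p₂ w ≤
        √t₂ * (∑ u, √(p₂ u)) + 1 / (t₁ * 2 ^ r) + 1 / (t₂ * 2 ^ k) := by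
  set T₁ := typical p₁ t₁
  set T₂ := typical p₂ t₂
  set X : Code r ℓ k → ℝ := fun θ => conflictMass T₁ p₁ fun u u' => syn θ (u + u') = 0
  set Y : Code r ℓ k → ℝ := fun θ => conflictMass T₂ p₂ fun u u' => InDual θ (u + u')
  have hX : ∑ θ, X θ ≤ (Fintype.card (Code r ℓ k) : ℝ) * (1 / (t₁ * 2 ^ r)) :=
    sum_conflict_le (fun θ v => syn θ v = 0) (fun v hv =>
      (Nat.mul_le_mul_right _ (le_of_eq (congrArg Finset.card (Finset.ext fun θ => by simp)))).trans
        (syn_collision hv)) hp₁ hs₁ ht₁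
  have hY : ∑ θ, Y θ ≤ (Fintype.card (Code r ℓ k) : ℝ) * (1 / (t₂ * 2 ^ k)) :=
    sum_conflict_le (fun θ v => InDual θ v) (fun v hv =>
      (Nat.mul_le_mul_right _ (le_of_eq (congrArg Finset.card (Finset.ext fun θ => by simp)))).trans
        (dual_collision hv)) hp₂ hs₂ ht₂
  obtain ⟨θ, -, hθ⟩ := Finset.exists_le_of_sum_le (s := (Finset.univ : Finset (Code r ℓ k)))
    (f := fun θ => X θ + Y θ) (g := fun _ => 1 / (t₁ * 2 ^ r) + 1 / (t₂ * 2 ^ k))
    Finset.univ_nonempty (by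
      rw [Finset.sum_add_distrib, Finset.sum_const, Finset.card_univ, nsmul_eq_mul, mul_add]
      exact add_le_add hX hY)
  have hXe : X θ = conflictMass T₁ p₁ fun u u' => syn θ (u + u') = 0 := rfl
  have hYe : Y θ = conflictMass T₂ p₂ fun u u' => InDual θ (u + u') := rfl
  simp only [conflictMass] at hXe hYe
  have hX0 : 0 ≤ X θ := hXe ▸ Finset.sum_nonneg fun u _ => by split_ifs <;> simp [hp₁ u]
  have hY0 : 0 ≤ Y θ := hYe ▸ Finset.sum_nonneg fun u _ => by split_ifs <;> simp [hp₂ u]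
  set pick : (Fin r → ZMod 2) → Vec r ℓ k := fun s =>
    if h : ∃ u ∈ T₁, syn θ u = s then h.choose else 0
  refine ⟨θ, pick, T₂.filter fun w => ¬ ∃ w' ∈ T₂, w ≠ w' ∧ InDual θ (w + w'), ?_, ?_, ?_⟩
  · intro w hw w' hw' hne hd
    exact (Finset.mem_filter.1 hw).2 ⟨w', (Finset.mem_filter.1 hw').1, hne, hd⟩
  · have : ∑ u, (if pick (syn θ u) ≠ u then p₁ u else 0) ≤ ∑ u ∈ T₁ᶜ, p₁ u + X θ := by
      rw [hXe, ← Finset.sum_compl_add_sum T₁]
      refine add_le_add (Finset.sum_le_sum fun u _ => ?_) (Finset.sum_le_sum fun u hu => ?_)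
      · split_ifs <;> simp [hp₁ u]
      · by_cases hc : pick (syn θ u) = u
        · rw [if_neg (not_not.2 hc)]
          split_ifs <;> simp [hp₁ u]
        · rw [if_pos hc, if_pos]
          have h : ∃ v ∈ T₁, syn θ v = syn θ u := ⟨u, hu, rfl⟩
          simp only [pick, dif_pos h] at hc
          refine ⟨h.choose, h.choose_spec.1, Ne.symm hc, ?_⟩
          rw [syn_add, h.choose_spec.2]
          exact funext fun i => two_add _
    have h' : ∑ u ∈ T₁ᶜ, p₁ u ≤ √t₁ * ∑ u, √(p₁ u) := (Finset.sum_congr (Finset.ext fun u => by simp [T₁]) fun _ _ => rfl).trans_le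
      (sum_atypical_le (t := t₁) hp₁)
    linarith
  · have : ∑ w ∈ (T₂.filter fun w => ¬ ∃ w' ∈ T₂, w ≠ w' ∧ InDual θ (w + w'))ᶜ, p₂ w ≤
        ∑ w ∈ T₂ᶜ, p₂ w + Y θ := by
      set T := T₂.filter fun w => ¬ ∃ w' ∈ T₂, w ≠ w' ∧ InDual θ (w + w') with hT
      have e1 := Finset.sum_add_sum_compl T p₂
      have e2 := Finset.sum_add_sum_compl T₂ p₂
      have e3 : ∑ w ∈ T₂, p₂ w = ∑ w ∈ T, p₂ w + Y θ := by
        rw [hYe, hT, Finset.sum_filter, ← Finset.sum_add_distrib]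
        refine Finset.sum_congr rfl fun w _ => ?_
        split_ifs <;> simp
      linarith
    have h' : ∑ u ∈ T₂ᶜ, p₂ u ≤ √t₂ * ∑ u, √(p₂ u) := (Finset.sum_congr (Finset.ext fun u => by simp [T₂]) fun _ _ => rfl).trans_le
      (sum_atypical_le (t := t₂) hp₂)
    linarith

end Vale.P372
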