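import Vale.Agent.P372.Fallback

/-!
# A block with enough coherence gives a positive key rate
-/

noncomputable section

open scoped BigOperators ComplexOrder Classical
open Matrix

namespace Vale.P372

variable {d n m : ℕ} {ρ : Matrix (Fin d × Fin d) (Fin d × Fin d) ℂ}

lemma toBit_true : toBit true = 1 := rfl

lemma toBit_false : toBit false = 0 := rfl

/-- The amplitude of a coin face. -/
def coinAmp : ℂ := ((√(1 / 2) : ℝ) : ℂ)

lemma coinAmp_sq : starRingEnd ℂ coinAmp * coinAmp = 1 / 2 := by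
  rw [coinAmp, Complex.conj_ofReal, ← Complex.ofReal_mul, Real.mul_self_sqrt (by norm_num)]
  norm_num

/-- Both parties toss a private coin. -/
abbrev coin (d : ℕ) : Protocol d 0 1 where
  U := Bool
  V := Bool
  SA := Unit
  SB := Unit
  T1 := Unit
  T2 := Unit
  krausA _ := Matrix.of fun _ _ => coinAmp
  krausB _ := Matrix.of fun _ _ => coinAmp
  completeA := by
    ext a a'
    simp [Matrix.mul_apply, Matrix.one_apply, coinAmp_sq, Subsingleton.elim a a']
  completeB := by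
    ext a a'
    simp [Matrix.mul_apply, Matrix.one_apply, coinAmp_sq, Subsingleton.elim a a']
  msg1 _ := ()
  msg2 _ _ := ()
  keyA u _ := fun _ => u
  keyB v _ := fun _ => v

theorem coin_good : BitGood (coin d) ρ 1 (1 / 2) := by
  intro m ψ _
  have hamp : ∀ l e, (coin d).eveVec ψ l e = coinAmp * coinAmp := fun l e => by
    simp [Protocol.eveVec, Protocol.amp, Subsingleton.elim e.2.2 default]
  have h4 : starRingEnd ℂ coinAmp = coinAmp := Complex.conj_ofReal _
  have h2 : coinAmp * coinAmp = 1 / 2 := by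
    rw [← coinAmp_sq, h4]
  refine ⟨Unit, inferInstance, fun _ _ _ => coinAmp, ?_, ?_, ?_, ?_, ?_⟩
  · intro x e e'
    simp only [hamp, h4, h2]
    simp only [Protocol.labA, Protocol.bitA, Fintype.sum_prod_type, map_div₀, map_one, map_ofNat]
    rcases (by decide : ∀ u : ZMod 2, u = 0 ∨ u = 1) x with rfl | rfl <;>
      simp +decide [toBit_true, toBit_false] <;> norm_num
  · intro x; simp [h4, h2, Finset.card_univ]
  · simp [h4, h2, Finset.card_univ]
  · simp [h4, h2, Finset.card_univ]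
  · simp only [nsq, hamp, h2]
    simp +decide [Protocol.labA, Protocol.labB, Protocol.bitA, Protocol.bitB, toBit_true, toBit_false,
      Fintype.sum_prod_type]
    norm_num

/-- Repetition: `G` blocks, then a coin. -/
theorem exists_repeated {B : Block d n} {a e F : ℝ} (hB : B.Good ρ a e F) (hae : a + e ≠ 0) :
    ∀ G : ℕ, ∃ P : Protocol d (G * n) 1,
      BitGood P ρ ((1 - 2 * (a + e)) ^ G + (1 - (1 - 2 * (a + e)) ^ G) * (F / (a + e)))
        ((1 - 2 * (a + e)) ^ G / 2 + (1 - (1 - 2 * (a + e)) ^ G) * (e / (a + e)))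
  | 0 => by
    rw [Nat.zero_mul]
    exact ⟨coin d, by simpa using coin_good⟩
  | G + 1 => by
    obtain ⟨P, hP⟩ := exists_repeated hB hae G
    rw [show (G + 1) * n = n + G * n by ring]
    refine ⟨fallback B P, ?_⟩
    convert fallback_good hB hP using 1
    · field_simp
      ring
    · field_simp
      ring

/-- Powers of a block. -/
theorem exists_power {B : Block d n} {a e F : ℝ} (hB : B.Good ρ a e F) :
    ∀ k : ℕ, ∃ B' : Block d ((k + 1) * n), B'.Good ρ (a ^ (k + 1)) (e ^ (k + 1)) (F ^ (k + 1))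
  | 0 => by
    rw [show (0 + 1) * n = n by ring]
    exact ⟨B, by simpa using hB⟩
  | k + 1 => by
    obtain ⟨B', hB'⟩ := exists_power hB k
    rw [show (k + 1 + 1) * n = (k + 1) * n + n by ring]
    exact ⟨B'.prod B, by simpa [pow_succ] using hB'.prod hB⟩

lemma rate_lt_two {f δ : ℝ} (hf1 : f ≤ 1) (hf0 : 0 < f) (hδ : 0 ≤ δ) (h : 64 * δ < f ^ 4) :
    (1 + 2 * √(δ * (1 - δ))) * (1 + √(1 - f ^ 2)) < 2 := by
  have h1 : √(1 - f ^ 2) ≤ 1 - f ^ 2 / 2 := by
    rw [Real.sqrt_le_iff]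
    constructor <;> nlinarith
  have h2 : √(δ * (1 - δ)) < f ^ 2 / 8 := by
    rw [Real.sqrt_lt' (by positivity)]
    nlinarith
  have h3 : 0 < f ^ 2 := pow_pos hf0 2
  have hx := mul_le_mul_of_nonneg_left h1
    (show (0 : ℝ) ≤ 1 + 2 * √(δ * (1 - δ)) by positivity)
  nlinarith [Real.sqrt_nonneg (δ * (1 - δ))]

theorem keyPositive_of_block {B : Block d n} {a e F : ℝ} (hn : 0 < n) (htr : ∑ x, ρ x x = 1)
    (hpur : ∃ (m : ℕ) (ψ : Fin d → Fin d → Fin m → ℂ), Purifies ψ ρ)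
    (hB : B.Good ρ a e F) (he : 0 ≤ e) (hF : 0 < F) (hFa : F ≤ a)
    (hcrit : e * a ^ 3 < F ^ 4) : KeyPositive ρ := by
  have ha : 0 < a := hF.trans_le hFa
  obtain ⟨k, hk⟩ := exists_pow_lt_of_lt_one (show (0 : ℝ) < 1 / 1024 by norm_num)
    (show e * a ^ 3 / F ^ 4 < 1 from (div_lt_one (by positivity)).2 hcrit)
  have hk' : (e * a ^ 3 / F ^ 4) ^ (k + 1) < 1 / 1024 :=
    lt_of_le_of_lt (pow_le_pow_of_le_one (by positivity)
      ((div_lt_one (by positivity)).2 hcrit).le (Nat.le_succ k)) hk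
  obtain ⟨B', hB'⟩ := exists_power hB k
  set A := a ^ (k + 1)
  set E := e ^ (k + 1)
  set Φ := F ^ (k + 1)
  have hA : 0 < A := pow_pos ha _
  have hE : 0 ≤ E := pow_nonneg he _
  have hΦ : 0 < Φ := pow_pos hF _
  have hΦA : Φ ≤ A := pow_le_pow_left₀ hF.le hFa _
  have hEA : E ≤ A := by
    refine pow_le_pow_left₀ he ?_ _
    have : F ^ 4 ≤ a ^ 4 := pow_le_pow_left₀ hF.le hFa _
    nlinarith [pow_pos ha 3]
  have hq : E * A ^ 3 / Φ ^ 4 < 1 / 1024 := by
    have : E * A ^ 3 / Φ ^ 4 = (e * a ^ 3 / F ^ 4) ^ (k + 1) := by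
      simp only [E, A, Φ, div_pow, mul_pow, ← pow_mul, mul_comm]
    rw [this]; exact hk'
  have hw : 0 ≤ 1 - 2 * (A + E) ∧ 1 - 2 * (A + E) < 1 := by
    obtain ⟨m, ψ, hψ⟩ := hpur
    obtain ⟨hw, ht⟩ := hB'.weights hψ
    refine ⟨?_, by linarith⟩
    rw [← Block.fail_mass hw ht]
    exact Finset.sum_nonneg fun l _ => by split_ifs <;> simp [nsq_nonneg]
  set w := 1 - 2 * (A + E)
  set φ := Φ / (A + E) with hφ
  set ε := E / (A + E) with hε
  have hφ0 : 0 < φ := by positivity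
  have hφ1 : φ ≤ 1 := (div_le_one (by positivity)).2 (by linarith)
  have hε0 : 0 ≤ ε := by positivity
  have hε1 : ε ≤ 1 := (div_le_one (by positivity)).2 (by linarith)
  have h64 : 64 * ε < φ ^ 4 := by
    rw [hφ, hε, div_pow, mul_div_assoc', div_lt_div_iff₀ (by positivity) (by positivity)]
    have h3 : (A + E) ^ 3 ≤ (2 * A) ^ 3 := pow_le_pow_left₀ (by positivity) (by linarith) _
    rw [div_lt_iff₀ (by positivity)] at hq
    have h5 : 64 * E * (A + E) ^ 3 < Φ ^ 4 := by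
      have := mul_le_mul_of_nonneg_left h3 (show 0 ≤ 64 * E by positivity)
      nlinarith [mul_nonneg hE (pow_nonneg hA.le 3)]
    nlinarith [mul_lt_mul_of_pos_right h5 (show 0 < A + E by positivity)]
  have hlim : Filter.Tendsto (fun G : ℕ =>
      (1 + 2 * √((w ^ G / 2 + (1 - w ^ G) * ε) * (1 - (w ^ G / 2 + (1 - w ^ G) * ε)))) *
        (1 + √(1 - (w ^ G + (1 - w ^ G) * φ) ^ 2))) Filter.atTop
      (nhds ((1 + 2 * √(ε * (1 - ε))) * (1 + √(1 - φ ^ 2)))) := by
    have hc : Continuous fun x : ℝ =>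
        (1 + 2 * √((x / 2 + (1 - x) * ε) * (1 - (x / 2 + (1 - x) * ε)))) *
          (1 + √(1 - (x + (1 - x) * φ) ^ 2)) := by fun_prop
    simpa [Function.comp_def] using
      (hc.tendsto 0).comp (tendsto_pow_atTop_nhds_zero_of_lt_one hw.1 hw.2)
  obtain ⟨G₀, hG₀⟩ := Filter.eventually_atTop.1
    (hlim.eventually_lt_const (rate_lt_two hφ1 hφ0 hε0 h64))
  obtain ⟨P, hP⟩ := exists_repeated hB' (by positivity) (G₀ + 1)
  have hw0 : 0 ≤ w ^ (G₀ + 1) := pow_nonneg hw.1 _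
  have hw1 : w ^ (G₀ + 1) ≤ 1 := pow_le_one₀ hw.1 hw.2.le
  refine bitGood_keyPositive P (by positivity) htr hP ?_ ?_ ?_ ?_ (hG₀ _ (Nat.le_succ _))
  · nlinarith [mul_nonneg (sub_nonneg.2 hw1) hε0]
  · nlinarith [mul_le_mul_of_nonneg_left hε1 (sub_nonneg.2 hw1)]
  · nlinarith [mul_nonneg (sub_nonneg.2 hw1) hφ0.le]
  · nlinarith [mul_le_mul_of_nonneg_left hφ1 (sub_nonneg.2 hw1)]

end Vale.P372
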