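import Mathlib

/-!
# Secret key: protocols, error and positive key rate

A state on `C^d ⊗ C^d` is a matrix indexed by `Fin d × Fin d`.  Eve holds a purification
`ψ : Fin d → Fin d → Fin m → ℂ`.  The protocols used here are two-message protocols (Bob speaks
first, then Alice): a subclass of all local operations with public communication.
-/

noncomputable section

open scoped BigOperators ComplexOrder Classical
open Matrix

namespace Vale.P372

/-- Bit strings of length `ℓ`. -/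
abbrev Key (ℓ : ℕ) : Type := Fin ℓ → Bool

/-- The trace norm `tr √(Xᴴ X)`. -/
def traceNorm {ι : Type} [Fintype ι] (X : Matrix ι ι ℂ) : ℝ :=
  ∑ i, Real.sqrt ((isHermitian_conjTranspose_mul_self X).eigenvalues i)

/-- `ψ` is a purification of `ρ`. -/
def Purifies {d m : ℕ} (ψ : Fin d → Fin d → Fin m → ℂ)
    (ρ : Matrix (Fin d × Fin d) (Fin d × Fin d) ℂ) : Prop :=
  ∀ a b a' b', ρ (a, b) (a', b') = ∑ e, ψ a b e * starRingEnd ℂ (ψ a' b' e)

/-- Alice and Bob apply complete sets of Kraus operators to their `n` systems (outcomes `u`, `v`,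
private outputs `SA`, `SB`); Bob announces `msg1 v`, Alice answers `msg2 u (msg1 v)`; the keys are
computed from the local outcomes and the received messages. -/
structure Protocol (d n ℓ : ℕ) where
  U : Type
  V : Type
  SA : Type
  SB : Type
  T1 : Type
  T2 : Type
  [finU : Fintype U]
  [finV : Fintype V]
  [finSA : Fintype SA]
  [finSB : Fintype SB]
  [finT1 : Fintype T1]
  [finT2 : Fintype T2]
  krausA : U → Matrix SA (Fin n → Fin d) ℂ
  krausB : V → Matrix SB (Fin n → Fin d) ℂ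
  completeA : ∑ u, (krausA u)ᴴ * krausA u = 1
  completeB : ∑ v, (krausB v)ᴴ * krausB v = 1
  msg1 : V → T1
  msg2 : U → T1 → T2
  keyA : U → T1 → Key ℓ
  keyB : V → T2 → Key ℓ

attribute [instance] Protocol.finU Protocol.finV Protocol.finSA Protocol.finSB Protocol.finT1
  Protocol.finT2

variable {d n ℓ m : ℕ}

/-- Eve's final system: the public transcript and her `n` purifying systems. -/
abbrev Protocol.EveIndex (P : Protocol d n ℓ) (m : ℕ) : Type := P.T1 × P.T2 × (Fin n → Fin m)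

/-- Index set of the final state: both keys and Eve's system. -/
abbrev Protocol.OutIndex (P : Protocol d n ℓ) (m : ℕ) : Type :=
  Key ℓ × Key ℓ × P.EveIndex m

/-- Eve's unnormalised vector in one branch (outcomes `u, v`, private outputs `s, t`). -/
def Protocol.amp (P : Protocol d n ℓ) (ψ : Fin d → Fin d → Fin m → ℂ)
    (u : P.U) (v : P.V) (s : P.SA) (t : P.SB) (e : Fin n → Fin m) : ℂ :=
  ∑ a : Fin n → Fin d, ∑ b : Fin n → Fin d,
    P.krausA u s a * P.krausB v t b * ∏ i, ψ (a i) (b i) (e i)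

/-- The same vector placed in the final space, next to the keys and the transcript. -/
def Protocol.branch (P : Protocol d n ℓ) (ψ : Fin d → Fin d → Fin m → ℂ)
    (u : P.U) (v : P.V) (s : P.SA) (t : P.SB) (i : P.OutIndex m) : ℂ :=
  if i.1 = P.keyA u (P.msg1 v) ∧ i.2.1 = P.keyB v (P.msg2 u (P.msg1 v)) ∧
      i.2.2.1 = P.msg1 v ∧ i.2.2.2.1 = P.msg2 u (P.msg1 v)
  then P.amp ψ u v s t i.2.2.2.2 else 0

/-- The final state of both keys and Eve. -/
def Protocol.outState (P : Protocol d n ℓ) (ψ : Fin d → Fin d → Fin m → ℂ) :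
    Matrix (P.OutIndex m) (P.OutIndex m) ℂ := fun i j =>
  ∑ u, ∑ v, ∑ s, ∑ t, P.branch ψ u v s t i * starRingEnd ℂ (P.branch ψ u v s t j)

/-- A perfect key of `ℓ` bits next to Eve's state `σ`. -/
def idealState (ℓ : ℕ) {ι : Type} (σ : Matrix ι ι ℂ) :
    Matrix (Key ℓ × Key ℓ × ι) (Key ℓ × Key ℓ × ι) ℂ := fun i j =>
  if i.1 = i.2.1 ∧ j.1 = j.2.1 ∧ i.1 = j.1 then (1 / 2 ^ ℓ : ℂ) * σ i.2.2 j.2.2 else 0

/-- The error is at most `ε`. -/
def Protocol.ErrorLE (P : Protocol d n ℓ) (ψ : Fin d → Fin d → Fin m → ℂ) (ε : ℝ) : Prop :=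
  ∃ σ : Matrix (P.EveIndex m) (P.EveIndex m) ℂ, σ.PosSemidef ∧ σ.trace = 1 ∧
    traceNorm (P.outState ψ - idealState ℓ σ) ≤ ε

/-- A positive rate of secret key, with error tending to zero, against every purification. -/
def KeyPositive (ρ : Matrix (Fin d × Fin d) (Fin d × Fin d) ℂ) : Prop :=
  ∃ R : ℝ, 0 < R ∧ ∀ ε : ℝ, 0 < ε → ∃ N : ℕ, ∀ n ≥ N, ∃ ℓ : ℕ, R * n ≤ ℓ ∧
    ∃ P : Protocol d n ℓ, ∀ (m : ℕ) (ψ : Fin d → Fin d → Fin m → ℂ),
      Purifies ψ ρ → P.ErrorLE ψ ε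

/-- A finite convex combination of product states. -/
def IsSeparable (ρ : Matrix (Fin d × Fin d) (Fin d × Fin d) ℂ) : Prop :=
  ∃ (k : ℕ) (p : Fin k → ℝ) (α β : Fin k → Matrix (Fin d) (Fin d) ℂ),
    (∀ i, 0 ≤ p i) ∧ ∑ i, p i = 1 ∧
    (∀ i, (α i).PosSemidef ∧ (α i).trace = 1) ∧ (∀ i, (β i).PosSemidef ∧ (β i).trace = 1) ∧
    ∀ a b a' b', ρ (a, b) (a', b') = ∑ i, (p i : ℂ) * α i a a' * β i b b'

/-- The normalisation `d + ∑_{i ≠ j} c i j`. -/
def normC {d : ℕ} (c : Fin d → Fin d → ℝ) : ℝ :=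
  d + ∑ i, ∑ j, if i = j then 0 else c i j

/-- The state proportional to `|φ⟩⟨φ| + ∑_{i ≠ j} c i j |ij⟩⟨ij|`, `φ = ∑ |ii⟩`. -/
def rhoC {d : ℕ} (c : Fin d → Fin d → ℝ) : Matrix (Fin d × Fin d) (Fin d × Fin d) ℂ :=
  fun x y => ((normC c : ℝ) : ℂ)⁻¹ *
    if x.1 = x.2 ∧ y.1 = y.2 then 1 else if x = y then (c x.1 x.2 : ℂ) else 0

/-- Horodecki's parameters: `α/2` on `(i, i+1)`, `(5-α)/2` on `(i, i-1)`. -/
def horodeckiC (α : ℝ) : Fin 3 → Fin 3 → ℝ := fun i j =>
  if j = i + 1 then α / 2 else (5 - α) / 2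

end Vale.P372
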