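import Vale.Agent.P372.BitKey

/-!
# A bit protocol below the threshold gives a positive key rate
-/

noncomputable section

open scoped BigOperators ComplexOrder Classical
open Matrix

namespace Vale.P372

variable {d n₀ : ℕ} {ρ : Matrix (Fin d × Fin d) (Fin d × Fin d) ℂ}

lemma sqrt_pow_eq {x : ℝ} (hx : 0 ≤ x) (n : ℕ) : √x ^ n = √(x ^ n) := by
  induction n with
  | zero => simp
  | succ n ih => rw [pow_succ, pow_succ, ih, Real.sqrt_mul (pow_nonneg hx n)]

/-- A threshold between `a ^ m` and `b ^ m` for the typical vectors. -/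
lemma threshold_bound {a b : ℝ} (ha : 0 < a) (hab : a < b) (m : ℕ) :
    ∃ t : ℝ, 0 < t ∧ √t * √a ^ m ≤ (√√a / √√b) ^ m ∧ 1 / (t * b ^ m) ≤ (√√a / √√b) ^ m := by
  have hb : 0 < b := ha.trans hab
  set p := √√a with hp'
  set q := √√b with hq'
  have hp : 0 < p := Real.sqrt_pos.2 (Real.sqrt_pos.2 ha)
  have hq : 0 < q := Real.sqrt_pos.2 (Real.sqrt_pos.2 hb)
  have hp2 : √a = p ^ 2 := (Real.sq_sqrt (Real.sqrt_nonneg a)).symm
  have hq2 : √b = q ^ 2 := (Real.sq_sqrt (Real.sqrt_nonneg b)).symm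
  have hq4 : b = q ^ 4 := by
    rw [show q ^ 4 = (q ^ 2) ^ 2 by ring, ← hq2, Real.sq_sqrt hb.le]
  refine ⟨((1 / (p * q)) ^ m) ^ 2, by positivity, le_of_eq ?_, ?_⟩
  · rw [Real.sqrt_sq (by positivity), hp2, ← mul_pow]
    congr 1
    field_simp
  · have hpq : p / q ≤ 1 := (div_le_one hq).2
      (Real.sqrt_le_sqrt (Real.sqrt_le_sqrt hab.le))
    have he : 1 / (((1 / (p * q)) ^ m) ^ 2 * b ^ m) = ((p / q) ^ m) ^ 2 := by
      rw [show b ^ m = ((q ^ 2) ^ m) ^ 2 by rw [hq4]; ring, ← mul_pow, ← mul_pow, one_div, ← inv_pow,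
        ← inv_pow]
      congr 2
      field_simp
    rw [he, sq]
    exact mul_le_of_le_one_left (by positivity) (pow_le_one₀ (by positivity) hpq)

theorem bitGood_keyPositive (B : Protocol d n₀ 1) {f δ : ℝ} (hn₀ : 0 < n₀)
    (htr : ∑ x, ρ x x = 1) (hB : BitGood B ρ f δ) (hδ0 : 0 ≤ δ) (hδ1 : δ ≤ 1)
    (hf0 : -1 ≤ f) (hf1 : f ≤ 1)
    (hrate : (1 + 2 * √(δ * (1 - δ))) * (1 + √(1 - f ^ 2)) < 2) : KeyPositive ρ := by
  set α : ℝ := 1 + 2 * √(δ * (1 - δ)) with hα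
  set β : ℝ := 1 + √(1 - f ^ 2) with hβ
  have hα1 : 1 ≤ α := le_add_of_nonneg_right (by positivity)
  have hβ1 : 1 ≤ β := le_add_of_nonneg_right (by positivity)
  have hαβ : α * β / 2 < 1 := by linarith
  obtain ⟨K, hK⟩ := exists_pow_lt_of_lt_one (show (0 : ℝ) < 1 / 4 by norm_num) hαβ
  rw [div_pow, div_lt_iff₀ (by positivity), mul_pow] at hK
  have hex : ∃ r : ℕ, α ^ K < 2 ^ r := pow_unbounded_of_one_lt _ one_lt_two
  set r := Nat.find hex with hr
  have hra : α ^ K < 2 ^ r := Nat.find_spec hex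
  have hr0 : r ≠ 0 := fun h => by
    rw [h, pow_zero] at hra
    exact absurd (one_le_pow₀ hα1) (not_le.2 hra)
  have hrb : (2 : ℝ) ^ r ≤ 2 * α ^ K := by
    have hmin := Nat.find_min hex (show r - 1 < r by omega)
    rw [not_lt] at hmin
    calc (2 : ℝ) ^ r = 2 * 2 ^ (r - 1) := by rw [← pow_succ']; congr 1; omega
      _ ≤ _ := by linarith
  have hβK : (1 : ℝ) ≤ β ^ K := one_le_pow₀ hβ1
  have hlt : (2 : ℝ) ^ (r + 1) * β ^ K < 2 ^ K := by
    have h := mul_le_mul_of_nonneg_right hrb (show (0 : ℝ) ≤ β ^ K by positivity)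
    rw [pow_succ]
    linarith
  have hrK : r + 1 < K := (pow_lt_pow_iff_right₀ (one_lt_two (α := ℝ))).1
    (lt_of_le_of_lt (le_mul_of_one_le_right (by positivity) hβK) hlt)
  set k := K - r - 1 with hk
  have hkb : β ^ K < 2 ^ k := by
    rw [show (2 : ℝ) ^ K = 2 ^ (r + 1) * 2 ^ k by rw [← pow_add]; congr 1; omega] at hlt
    exact lt_of_mul_lt_mul_left hlt (by positivity)
  set x := √√(α ^ K) / √√((2 : ℝ) ^ r) with hx
  set y := √√(β ^ K) / √√((2 : ℝ) ^ k) with hy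
  have hx1 : x < 1 := (div_lt_one (by positivity)).2
    (Real.sqrt_lt_sqrt (Real.sqrt_nonneg _) (Real.sqrt_lt_sqrt (by positivity) hra))
  have hy1 : y < 1 := (div_lt_one (by positivity)).2
    (Real.sqrt_lt_sqrt (Real.sqrt_nonneg _) (Real.sqrt_lt_sqrt (by positivity) hkb))
  have hlim : Filter.Tendsto
      (fun m => 2 * (x ^ m + x ^ m + y ^ m) + 2 * √(y ^ m + x ^ m + y ^ m) + (y ^ m + x ^ m + y ^ m))
      Filter.atTop (nhds 0) := by
    have hxl := tendsto_pow_atTop_nhds_zero_of_lt_one (show 0 ≤ x by positivity) hx1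
    have hyl := tendsto_pow_atTop_nhds_zero_of_lt_one (show 0 ≤ y by positivity) hy1
    simpa using ((((hxl.add hxl).add hyl).const_mul 2).add
      ((((hyl.add hxl).add hyl).sqrt).const_mul 2)).add ((hyl.add hxl).add hyl)
  refine ⟨1 / (2 * (n₀ * K : ℕ)), by
    have : 0 < n₀ * K := Nat.mul_pos hn₀ (by omega)
    positivity, fun ε hε => ?_⟩
  obtain ⟨M, hM⟩ := Filter.eventually_atTop.1 (hlim.eventually_le_const hε)
  refine ⟨(M + 1) * (n₀ * K), fun n hn => ?_⟩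
  set S := n₀ * K with hS
  have hS0 : 0 < S := Nat.mul_pos hn₀ (by omega)
  set m := n / S with hm
  have hmM : M + 1 ≤ m := (Nat.le_div_iff_mul_le hS0).2 hn
  refine ⟨m, ?_, ?_⟩
  · have h1 : n < (m + 1) * S := Nat.lt_mul_of_div_lt (Nat.lt_succ_self _) hS0
    have h3 : (n : ℝ) ≤ 2 * m * S := by
      have : n ≤ 2 * m * S := h1.le.trans (Nat.mul_le_mul_right _ (by omega))
      exact_mod_cast this
    rw [one_div, inv_mul_le_iff₀ (by positivity)]
    linarith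
  have hcard : Fintype.card (CIdx (r * m) m (k * m)) = K * m := by
    simp only [Fintype.card_sum, Fintype.card_fin]
    rw [show K = r + (1 + k) by omega]
    ring
  have hNm : r * m + (m + k * m) = K * m := by
    rw [show K = r + (1 + k) by omega]; ring
  have hdiv : S * m ≤ n := by rw [hm, mul_comm]; exact Nat.div_mul_le_self n S
  have e : Fin n ≃ (CIdx (r * m) m (k * m) × Fin n₀) ⊕ Fin (n - S * m) :=
    Fintype.equivOfCardEq (by
      rw [Fintype.card_sum, Fintype.card_prod, hcard]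
      simp only [Fintype.card_fin]
      rw [show K * m * n₀ = S * m by rw [hS]; ring]
      omega)
  obtain ⟨t₁, ht₁, hu₁, hv₁⟩ := threshold_bound (show 0 < α ^ K by positivity) hra m
  obtain ⟨t₂, ht₂, hu₂, hv₂⟩ := threshold_bound (show 0 < β ^ K by positivity) hkb m
  have hp0 : 0 ≤ (1 - f) / 2 := by linarith
  have hp1 : (1 - f) / 2 ≤ 1 := by linarith
  obtain ⟨θ, pick, T, hT, hE1, hE2⟩ := exists_code (r := r * m) (ℓ := m) (k := k * m)
    (binom_nonneg hδ0 hδ1) (sum_binom δ).le ht₁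
    (binom_nonneg hp0 hp1) (sum_binom _).le ht₂
  refine ⟨codeProtocol B θ pick e, fun M' ψ hψ => ?_⟩
  obtain ⟨σ, hσ, hσt, hbound⟩ := codeProtocol_error B hB hψ htr θ pick T hT e hδ0 hδ1
  refine ⟨σ, hσ, hσt, hbound.trans (le_trans ?_ (hM m (by omega)))⟩
  have hsq : √(1 + 2 * √((1 - f) / 2 * (1 - (1 - f) / 2))) = √β := by
    rw [hβ, show (1 - f) / 2 * (1 - (1 - f) / 2) = (1 - f ^ 2) / (2 : ℝ) ^ 2 by ring,
      Real.sqrt_div' _ (by norm_num), Real.sqrt_sq (by norm_num)]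
    congr 1
    ring
  rw [sum_sqrt_binom hδ0 hδ1, hNm, ← hα, pow_mul, sqrt_pow_eq (by positivity),
    show (2 : ℝ) ^ (r * m) = (2 ^ r) ^ m from pow_mul _ _ _,
    show (2 : ℝ) ^ (k * m) = (2 ^ k) ^ m from pow_mul _ _ _] at hE1
  rw [sum_sqrt_binom hp0 hp1, hsq, hNm, pow_mul, sqrt_pow_eq (by positivity),
    show (2 : ℝ) ^ (r * m) = (2 ^ r) ^ m from pow_mul _ _ _,
    show (2 : ℝ) ^ (k * m) = (2 ^ k) ^ m from pow_mul _ _ _] at hE2
  have h1 : (∑ u, if pick (syn θ u) ≠ u then binom δ u else 0) ≤ x ^ m + x ^ m + y ^ m := by linarith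
  have h2 : ∑ w ∈ Tᶜ, binom ((1 - f) / 2) w ≤ y ^ m + x ^ m + y ^ m := by linarith
  have h3 := Real.sqrt_le_sqrt h2
  linarith

end Vale.P372
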