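import Vale.Agent.P372.Block
import Vale.Agent.P372.KeyRate

/-!
# Repeated blocks with a coin as last fallback
-/

noncomputable section

open scoped BigOperators ComplexOrder Classical
open Matrix

namespace Vale.P372

variable {d n₁ n₂ m : ℕ} {ρ : Matrix (Fin d × Fin d) (Fin d × Fin d) ℂ}

lemma toBit_finTwo (x : ZMod 2) : toBit (finTwoEquiv x) = x := finTwoEquiv.symm_apply_apply x

/-- Alice's bit in the fallback protocol. -/
def pickA (p q : Option (ZMod 2)) (o : ZMod 2) : ZMod 2 :=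
  match p, q with
  | some x, some _ => x
  | _, _ => o

/-- Bob's bit in the fallback protocol. -/
def pickB (p q : Option (ZMod 2)) (o : ZMod 2) : ZMod 2 :=
  match p, q with
  | some _, some y => y
  | _, _ => o

lemma labA_fallback (B : Block d n₁) (Q : Protocol d n₂ 1) (lb : B.Label) (lq : Q.Label) :
    (fallback B Q).labA (pairLabel _ _ _ _ _ _ _ _ (lb, lq)) =
      pickA (B.sA lb.1) (B.sB lb.2.1) (Q.labA lq) := by
  simp only [Protocol.labA, Protocol.bitA, pairLabel, Equiv.coe_fn_mk]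
  cases hA : B.sA lb.1 <;> cases hB : B.sB lb.2.1 <;> simp [pickA, toBit_finTwo]

lemma labB_fallback (B : Block d n₁) (Q : Protocol d n₂ 1) (lb : B.Label) (lq : Q.Label) :
    (fallback B Q).labB (pairLabel _ _ _ _ _ _ _ _ (lb, lq)) =
      pickB (B.sA lb.1) (B.sB lb.2.1) (Q.labB lq) := by
  simp only [Protocol.labB, Protocol.bitB, pairLabel, Equiv.coe_fn_mk]
  cases hA : B.sA lb.1 <;> cases hB : B.sB lb.2.1 <;> simp [pickB, toBit_finTwo]

lemma ite_regroup {α β γ ε : Type} (a a' : α) (b b' : β) (c c' : γ) (u u' : ε) {x y z : ℂ}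
    {i₁ : Decidable ((a, b) = (a', b') ∧ (c, u) = (c', u'))} {i₂ : Decidable (a = a' ∧ c = c')}
    {i₃ : Decidable (b = b' ∧ u = u')} (h : x = y * z) :
    (if (a, b) = (a', b') ∧ (c, u) = (c', u') then x else 0) =
      (if a = a' ∧ c = c' then y else 0) * (if b = b' ∧ u = u' then z else 0) := by
  simp only [Prod.mk.injEq] at *
  split_ifs <;> simp_all

lemma eveVec_fallback (B : Block d n₁) (Q : Protocol d n₂ 1) (ψ : Fin d → Fin d → Fin m → ℂ)
    (lb : B.Label) (lq : Q.Label) (z : (fallback B Q).EveIndex m) :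
    (fallback B Q).eveVec ψ (pairLabel _ _ _ _ _ _ _ _ (lb, lq)) z =
      tp (B.flagVec ψ lb) (Q.eveVec ψ lq) (fallbackEve B Q m z) := by
  obtain ⟨⟨b1, t1⟩, ⟨b2, t2⟩, w⟩ := z
  have h := rawAmp_tens B.krausA B.krausB Q.krausA Q.krausB ψ lb lq w
  exact ite_regroup _ _ _ _ _ _ _ _ h

/-- The weight of Eve's vectors whose block part fails. -/
lemma Block.fail_mass {B : Block d n₁} {a e : ℝ} {ψ : Fin d → Fin d → Fin m → ℂ}
    (hq : ∀ x y, (∑ l, if B.sA l.1 = some x ∧ B.sB l.2.1 = some y then nsq (B.amp ψ l) else 0) =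
      if x = y then a else e)
    (ht : ∑ l, nsq (B.amp ψ l) = 1) :
    (∑ l, if B.joint l then 0 else nsq (B.amp ψ l)) = 1 - 2 * (a + e) := by
  have h : ∀ l : B.Label, (if B.joint l then 0 else nsq (B.amp ψ l)) = nsq (B.amp ψ l) -
      ∑ x, ∑ y, if B.sA l.1 = some x ∧ B.sB l.2.1 = some y then nsq (B.amp ψ l) else 0 := by
    intro l
    cases hA : B.sA l.1 <;> cases hB : B.sB l.2.1 <;> simp [Block.joint, hA, hB, ite_and]
  simp only [h, Finset.sum_sub_distrib, ht]
  rw [Finset.sum_comm, Finset.sum_congr rfl fun x _ => Finset.sum_comm]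
  simp only [hq, zmod_two_univ]
  norm_num
  ring

lemma Block.Good.weights {B : Block d n₁} {a e F : ℝ} (hB : B.Good ρ a e F)
    {ψ : Fin d → Fin d → Fin m → ℂ} (hψ : Purifies ψ ρ) :
    (∀ x y, (∑ l, if B.sA l.1 = some x ∧ B.sB l.2.1 = some y then nsq (B.amp ψ l) else 0) =
      if x = y then a else e) ∧ ∑ l, nsq (B.amp ψ l) = 1 := by
  obtain ⟨R, _, ν, c, q, -, t⟩ := hB m ψ hψ
  refine ⟨fun x y => ?_, t⟩
  apply Complex.ofReal_injective
  rw [Complex.ofReal_sum, ← q x y]
  have hl : ∀ l : B.Label,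
      ((if B.sA l.1 = some x ∧ B.sB l.2.1 = some y then nsq (B.amp ψ l) else 0 : ℝ) : ℂ) =
      ∑ z, if B.sA l.1 = some x ∧ B.sB l.2.1 = some y
        then B.amp ψ l z * starRingEnd ℂ (B.amp ψ l z) else 0 := fun l => by
    split_ifs with h
    · simp [nsq, Complex.mul_conj', Complex.ofReal_sum]
    · simp
  rw [Finset.sum_congr rfl fun l _ => hl l, Finset.sum_comm]
  simp only [c]
  rw [Finset.sum_comm]
  exact Finset.sum_congr rfl fun r _ => Finset.sum_congr rfl fun z _ => mul_comm _ _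

lemma sum_option_zmod {M : Type} [AddCommMonoid M] (g : Option (ZMod 2) → M) :
    ∑ c, g c = g none + (g (some 0) + g (some 1)) := by
  rw [Fintype.sum_option, zmod_two_univ]

/-- The part of Eve's block vectors in one slot: agreement, or the error of Alice's bit. -/
def slot {R : Type} (ν : ZMod 2 → ZMod 2 → R → (Fin n₁ → Fin m) → ℂ) (c : Option (ZMod 2))
    (x : ZMod 2) (r : R) : (Fin n₁ → Fin m) → ℂ :=
  c.elim (ν x x r) fun c => if c = x then ν x (x + 1) r else 0

lemma sum_slot {R M : Type} [AddCommMonoid M] (ν : ZMod 2 → ZMod 2 → R → (Fin n₁ → Fin m) → ℂ)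
    (g : ((Fin n₁ → Fin m) → ℂ) → M) (hg : g 0 = 0) (x : ZMod 2) (r : R) :
    ∑ c, g (slot ν c x r) = ∑ y, g (ν x y r) := by
  rw [sum_option_zmod, zmod_two_univ]
  rcases (by decide : ∀ u : ZMod 2, u = 0 ∨ u = 1) x with rfl | rfl
  · simp [slot, hg]
  · simp [slot, hg, show (1 : ZMod 2) + 1 = 0 from rfl, add_comm]

lemma pickA_split {κ : Type} [Fintype κ] (p q : Option (ZMod 2)) (o : κ → ZMod 2) (g : ℂ)
    (h : κ → ℂ) (x : ZMod 2) :
    (∑ k, if pickA p q (o k) = x then g * h k else 0) =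
      (∑ y, if p = some x ∧ q = some y then g else 0) * ∑ k, h k +
        (if p.isSome && q.isSome then 0 else g) * ∑ k, if o k = x then h k else 0 := by
  cases p <;> cases q <;> simp [pickA, Finset.mul_sum, mul_ite, ite_and]
  all_goals first
    | (rename_i u v; by_cases hu : u = x <;> simp [hu]; done)
    | congr! with k

lemma pick_err {κ : Type} [Fintype κ] (p q : Option (ZMod 2)) (o o' : κ → ZMod 2) (g : ℝ)
    (h : κ → ℝ) :
    (∑ k, if pickA p q (o k) ≠ pickB p q (o' k) then g * h k else 0) =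
      (∑ x, ∑ y, if x ≠ y then (if p = some x ∧ q = some y then g else 0) else 0) * ∑ k, h k +
        (if p.isSome && q.isSome then 0 else g) * ∑ k, if o k ≠ o' k then h k else 0 := by
  rcases p with _ | u
  · cases q <;> simp [pickA, pickB, Finset.mul_sum, mul_ite] <;>
      exact Finset.sum_congr rfl fun k _ => by by_cases hk : o k = o' k <;> simp [hk]
  rcases q with _ | v
  · simp [pickA, pickB, Finset.mul_sum, mul_ite]
    exact Finset.sum_congr rfl fun k _ => by by_cases hk : o k = o' k <;> simp [hk]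
  rcases (by decide : ∀ u : ZMod 2, u = 0 ∨ u = 1) u with rfl | rfl <;>
    rcases (by decide : ∀ u : ZMod 2, u = 0 ∨ u = 1) v with rfl | rfl <;>
    simp [pickA, pickB, zmod_two_univ, Finset.mul_sum]

lemma flag_sum (B : Block d n₁) {R : Type} [Fintype R] (ψ : Fin d → Fin d → Fin m → ℂ)
    (ν : R → (Fin n₁ → Fin m) → ℂ) (x y : ZMod 2)
    (hc : ∀ z z', (∑ l, if B.sA l.1 = some x ∧ B.sB l.2.1 = some y
        then B.amp ψ l z * starRingEnd ℂ (B.amp ψ l z') else 0) =
      ∑ r, ν r z * starRingEnd ℂ (ν r z'))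
    (Z Z' : Bool × Bool × (Fin n₁ → Fin m)) :
    (∑ l, if B.sA l.1 = some x ∧ B.sB l.2.1 = some y
      then B.flagVec ψ l Z * starRingEnd ℂ (B.flagVec ψ l Z') else 0) =
    ∑ r, flagged true true (ν r) Z * starRingEnd ℂ (flagged true true (ν r) Z') := by
  obtain ⟨b, c, z⟩ := Z
  obtain ⟨b', c', z'⟩ := Z'
  have hl : ∀ l, (if B.sA l.1 = some x ∧ B.sB l.2.1 = some y
      then B.flagVec ψ l (b, c, z) * starRingEnd ℂ (B.flagVec ψ l (b', c', z')) else 0) =
      (if b = true ∧ c = true ∧ b' = true ∧ c' = true then 1 else 0) *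
        (if B.sA l.1 = some x ∧ B.sB l.2.1 = some y
          then B.amp ψ l z * starRingEnd ℂ (B.amp ψ l z') else 0) := by
    intro l
    by_cases h : B.sA l.1 = some x ∧ B.sB l.2.1 = some y
    · cases b <;> cases c <;> cases b' <;> cases c' <;>
        simp [Block.flagVec, Block.joint, h.1, h.2]
    · simp [h]
  rw [Finset.sum_congr rfl fun l _ => hl l, ← Finset.mul_sum, hc, Finset.mul_sum]
  refine Finset.sum_congr rfl fun r _ => ?_
  cases b <;> cases c <;> cases b' <;> cases c' <;> simp [flagged]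

theorem fallback_good {B : Block d n₁} {Q : Protocol d n₂ 1} {a e F f δ : ℝ}
    (hB : B.Good ρ a e F) (hQ : BitGood Q ρ f δ) :
    BitGood (fallback B Q) ρ (2 * F + (1 - 2 * (a + e)) * f) (2 * e + (1 - 2 * (a + e)) * δ) := by
  intro m ψ hψ
  obtain ⟨hw, ht⟩ := hB.weights hψ
  have hfail := Block.fail_mass hw ht
  have hfailC : (∑ l, if B.joint l then (0 : ℂ) else (nsq (B.amp ψ l) : ℂ)) =
      ((1 - 2 * (a + e) : ℝ) : ℂ) := by
    rw [← hfail, Complex.ofReal_sum]
    exact Finset.sum_congr rfl fun l _ => by split_ifs <;> simp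
  have hQt := hQ.total hψ
  obtain ⟨Rb, _, ν, cb, qb, fb, -⟩ := hB m ψ hψ
  obtain ⟨RQ, _, η, cQ, nQ, oQ, oQ', eQ⟩ := hQ m ψ hψ
  set E := fallbackEve B Q m
  set η' : ZMod 2 → (Option (ZMod 2) × Rb × ZMod 2 × RQ) ⊕ (B.Label × RQ) →
      (fallback B Q).EveIndex m → ℂ := fun x q =>
    Sum.elim (fun p z => tp (flagged true true (slot ν p.1 x p.2.1)) (η p.2.2.1 p.2.2.2) (E z))
      (fun p z => (if B.joint p.1 then (0 : ℂ) else 1) * tp (B.flagVec ψ p.1) (η x p.2) (E z)) q
    with hη'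
  have hηtot : ∑ x', ∑ r, ip (η x' r) (η x' r) = (1 : ℂ) := by
    simp only [ip, nQ]
    norm_num [zmod_two_univ]
  have hip : ∀ x x' : ZMod 2, (∑ q, ∑ z, starRingEnd ℂ (η' x q z) * η' x' q z) =
      (∑ c, ∑ r, ip (slot ν c x r) (slot ν c x' r)) * 1 +
        ((1 - 2 * (a + e) : ℝ) : ℂ) * ∑ r, ip (η x r) (η x' r) := by
    intro x x'
    rw [Fintype.sum_sum_type]
    congr 1
    · calc _ = ∑ p : Option (ZMod 2) × Rb × ZMod 2 × RQ,
            ip (tp (flagged true true (slot ν p.1 x p.2.1)) (η p.2.2.1 p.2.2.2))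
              (tp (flagged true true (slot ν p.1 x' p.2.1)) (η p.2.2.1 p.2.2.2)) :=
            Finset.sum_congr rfl fun p _ => ip_equiv E _ _
        _ = _ := by
            simp only [ip_tp, ip_flagged, Fintype.sum_prod_type, ← Finset.mul_sum, ← Finset.sum_mul,
              hηtot]
    · calc _ = ∑ p : B.Label × RQ, (if B.joint p.1 then (0 : ℂ) else 1) *
            ip (tp (B.flagVec ψ p.1) (η x p.2)) (tp (B.flagVec ψ p.1) (η x' p.2)) := by
            refine Finset.sum_congr rfl fun p _ => ?_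
            rw [← ip_equiv E, ip, Finset.mul_sum]
            refine Finset.sum_congr rfl fun z _ => ?_
            simp only [hη', Sum.elim_inr]
            split_ifs <;> simp
        _ = ∑ l : B.Label, (if B.joint l then (0 : ℂ) else (nsq (B.amp ψ l) : ℂ)) *
            ∑ r, ip (η x r) (η x' r) := by
            rw [Fintype.sum_prod_type]
            refine Finset.sum_congr rfl fun l _ => ?_
            simp only [ip_tp, ip_self, nsq_flagVec, Finset.mul_sum]
            exact Finset.sum_congr rfl fun r _ => by split_ifs <;> simp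
        _ = _ := by rw [← Finset.sum_mul, hfailC]
  refine ⟨_, inferInstance, η', ?_, ?_, ?_, ?_, ?_⟩
  · intro x z z'
    rw [← Equiv.sum_comp (pairLabel B.U Q.U B.V Q.V B.SA Q.SA B.SB Q.SB), Fintype.sum_prod_type]
    simp only [labA_fallback, eveVec_fallback]
    set Z := E z with hZ
    set Z' := E z' with hZ'
    have hlb : ∀ lb : B.Label,
        (∑ lq, if pickA (B.sA lb.1) (B.sB lb.2.1) (Q.labA lq) = x then
          tp (B.flagVec ψ lb) (Q.eveVec ψ lq) Z * starRingEnd ℂ (tp (B.flagVec ψ lb) (Q.eveVec ψ lq) Z')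
          else 0) =
        (∑ y, if B.sA lb.1 = some x ∧ B.sB lb.2.1 = some y
            then B.flagVec ψ lb Z.1 * starRingEnd ℂ (B.flagVec ψ lb Z'.1) else 0) *
          (∑ lq, Q.eveVec ψ lq Z.2 * starRingEnd ℂ (Q.eveVec ψ lq Z'.2)) +
        (if B.joint lb then 0 else B.flagVec ψ lb Z.1 * starRingEnd ℂ (B.flagVec ψ lb Z'.1)) *
          (∑ lq, if Q.labA lq = x then Q.eveVec ψ lq Z.2 * starRingEnd ℂ (Q.eveVec ψ lq Z'.2) else 0) := by
      intro lb
      refine Eq.trans (Finset.sum_congr rfl fun lq _ => ?_) (pickA_split (B.sA lb.1) (B.sB lb.2.1)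
        Q.labA _ (fun lq => Q.eveVec ψ lq Z.2 * starRingEnd ℂ (Q.eveVec ψ lq Z'.2)) x)
      simp only [tp, map_mul]
      exact if_congr Iff.rfl (by ring) rfl
    refine (Finset.sum_congr rfl fun lb _ => hlb lb).trans ?_
    rw [Finset.sum_add_distrib, ← Finset.sum_mul, Fintype.sum_sum_type]
    congr 1
    · have hall : ∑ lq, Q.eveVec ψ lq Z.2 * starRingEnd ℂ (Q.eveVec ψ lq Z'.2) =
          ∑ x', ∑ r, η x' r Z.2 * starRingEnd ℂ (η x' r Z'.2) := by
        simp only [← cQ]
        rw [Finset.sum_comm]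
        simp
      rw [Finset.sum_comm, Finset.sum_congr rfl fun y _ => flag_sum B ψ (ν x y) x y (cb x y) Z.1 Z'.1,
        hall, Finset.sum_comm]
      rw [← Finset.sum_congr rfl fun r _ => sum_slot ν
        (fun v => flagged true true v Z.1 * starRingEnd ℂ (flagged true true v Z'.1))
        (by simp [flagged]) x r]
      rw [Finset.sum_comm]
      simp only [hη', Sum.elim_inl, tp, ← hZ, ← hZ', map_mul, Fintype.sum_prod_type]
      rw [Finset.sum_mul]
      refine Finset.sum_congr rfl fun c _ => ?_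
      rw [Finset.sum_mul]
      refine Finset.sum_congr rfl fun r _ => ?_
      simp only [Finset.mul_sum]
      exact Finset.sum_congr rfl fun x' _ => Finset.sum_congr rfl fun r' _ => by ring
    · refine Eq.trans ?_ (Fintype.sum_prod_type _).symm
      refine Finset.sum_congr rfl fun lb _ => ?_
      rw [cQ, Finset.mul_sum]
      refine Finset.sum_congr rfl fun r _ => ?_
      simp only [hη', Sum.elim_inr, tp, ← hZ, ← hZ']
      split_ifs <;> simp
      ring
  · intro x
    rw [hip, Finset.sum_comm, Finset.sum_congr rfl fun r _ => sum_slot ν (fun v => ip v v)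
      (by simp [ip]) x r, Finset.sum_comm]
    rw [Finset.sum_congr rfl fun y _ => qb x y]
    simp only [ip, nQ]
    rcases (by decide : ∀ u : ZMod 2, u = 0 ∨ u = 1) x with rfl | rfl <;>
      simp [zmod_two_univ] <;> push_cast <;> ring
  · rw [hip, sum_option_zmod]
    simp only [ip] at fb ⊢
    simp [slot, fb, oQ]
    ring
  · rw [hip, sum_option_zmod]
    have fb' : ∑ r, ip (ν 1 1 r) (ν 0 0 r) = (F : ℂ) := by
      rw [← Complex.conj_ofReal F, ← fb, map_sum]
      simp only [ip_conj]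
    simp only [ip] at fb' ⊢
    simp [slot, fb', oQ']
    ring
  · rw [← Equiv.sum_comp (pairLabel B.U Q.U B.V Q.V B.SA Q.SA B.SB Q.SB), Fintype.sum_prod_type]
    simp only [labA_fallback, labB_fallback]
    have hn : ∀ lb lq, nsq ((fallback B Q).eveVec ψ (pairLabel B.U Q.U B.V Q.V B.SA Q.SA B.SB Q.SB (lb, lq))) =
        nsq (B.amp ψ lb) * nsq (Q.eveVec ψ lq) := by
      intro lb lq
      rw [← nsq_flagVec, ← nsq_tp, funext fun z => eveVec_fallback B Q ψ lb lq z]
      exact Equiv.sum_comp E fun w => ‖tp (B.flagVec ψ lb) (Q.eveVec ψ lq) w‖ ^ 2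
    simp only [hn, pick_err, hQt, eQ, mul_one, Finset.sum_add_distrib, ← Finset.sum_mul]
    rw [show (∑ l : B.Label, if ((B.sA l.1).isSome && (B.sB l.2.1).isSome) = true then 0
        else nsq (B.amp ψ l)) = 1 - 2 * (a + e) from hfail, Finset.sum_comm, Finset.sum_congr rfl fun x _ => Finset.sum_comm]
    simp only [zmod_two_univ]
    simp [hw]
    ring

end Vale.P372
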