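import Vale.Agent.P372.Reduce

/-!
# Key from a bad pair and from a bad triangle
-/

noncomputable section

open scoped BigOperators ComplexOrder Classical
open Matrix

namespace Vale.P372

variable {d : ℕ} {c : Fin d → Fin d → ℝ}

/-- A selection of one of two levels. -/
def pick2 (x : ZMod 2) (_ : Unit) (j : ZMod 2) : ℝ := if j = x then 1 else 0

theorem keyPositive_pair (hc : ∀ i j, i ≠ j → 0 ≤ c i j) {i j : Fin d} (hij : i ≠ j)
    (h : c i j * c j i < 1) : KeyPositive (rhoC c) := by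
  have hd : 0 < d := Fin.pos i
  set cfg : ZMod 2 → Fin 2 → Fin d := fun x => if x = 0 then ![i, j] else ![j, i] with hcfg'
  have hz : ∀ u : ZMod 2, u = 0 ∨ u = 1 := by decide
  have h10 : ¬((1 : ZMod 2) = 0) := by decide
  have h01 : ¬((0 : ZMod 2) = 1) := by decide
  have hcfg : ∀ x y, x ≠ y → ∀ p, cfg x p ≠ cfg y p := by
    intro x y hxy p
    rcases hz x with rfl | rfl <;> rcases hz y with rfl | rfl <;>
      first
        | exact absurd rfl hxy
        | (fin_cases p <;> simp [cfg, h10, hij, hij.symm])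
  have hC01 : (∏ p, c (cfg 0 p) (cfg 1 p)) = c i j * c j i := by
    simp [cfg, h10, Fin.prod_univ_two]
  have hC10 : (∏ p, c (cfg 1 p) (cfg 0 p)) = c i j * c j i := by
    simp [cfg, h10, Fin.prod_univ_two, mul_comm]
  have horth : ∀ x y : ZMod 2, x ≠ y → ∑ z, ∑ s, pick2 z s x * pick2 z s y = 0 := by
    intro x y hxy
    refine Finset.sum_eq_zero fun z _ => ?_
    simp only [pick2, Finset.univ_unique, Finset.sum_singleton]
    split_ifs with h1 h2 <;> simp_all
  have h0 : 0 ≤ c i j * c j i := mul_nonneg (hc i j hij) (hc j i hij.symm)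
  refine keyPositive_of_levels hd hc (by norm_num) cfg hcfg pick2 pick2 horth horth 1 (by simp)
    (a := 1) (e := c i j * c j i) (F := 1) ?_ ?_ h0 one_pos le_rfl (by simpa using h)
  · intro x y
    rcases hz x with rfl | rfl <;> rcases hz y with rfl | rfl <;>
      simp only [lvlForm, prodCoef, pick2, zmod_two_univ, Finset.univ_unique, Finset.sum_singleton] <;>
      simp [h10, h01, hC01, hC10]
  · simp only [lvlForm, prodCoef, pick2, zmod_two_univ, Fintype.sum_prod_type, Finset.univ_unique,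
      Finset.sum_singleton]
    simp [h10, h01, Matrix.one_apply]

/-- A sign. -/
def sg (x : ZMod 2) : ℝ := if x = 0 then -1 else 1

/-- Alice's three-level operators. -/
def triA (r : ℝ) (x : ZMod 2) (s : Fin 2) : Fin 3 → ℝ := ![![1, r * sg x, 0], ![0, 0, r]] s

/-- Bob's three-level operators. -/
def triB (r : ℝ) (x : ZMod 2) (s : Fin 2) : Fin 3 → ℝ := ![![r, sg x, 0], ![0, 0, r]] s

/-- The mixing of Eve's shield vectors. -/
def triW (r : ℝ) : Matrix (Fin 2 × Fin 2) (Fin 2 × Fin 2) ℝ := fun p q =>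
  ![![![![-((r ^ 2 - 4) / (r ^ 2 + 4)), 0], ![0, 4 * r / (r ^ 2 + 4)]],
      ![![0, -1], ![0, 0]]],
    ![![![0, 0], ![1, 0]],
      ![![4 * r / (r ^ 2 + 4), 0], ![0, (r ^ 2 - 4) / (r ^ 2 + 4)]]]] p.1 p.2 q.1 q.2

lemma triW_orth (r : ℝ) : (triW r)ᵀ * triW r = 1 := by
  have h : 0 < r ^ 2 + 4 := by positivity
  ext ⟨a, b⟩ ⟨a', b'⟩
  fin_cases a <;> fin_cases b <;> fin_cases a' <;> fin_cases b' <;>
    simp [Matrix.mul_apply, Matrix.one_apply, triW, Fintype.sum_prod_type, Fin.sum_univ_two] <;>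
    field_simp <;> ring

lemma triA_orth (r : ℝ) (j k : Fin 3) (h : j ≠ k) : ∑ x, ∑ s, triA r x s j * triA r x s k = 0 := by
  fin_cases j <;> fin_cases k <;> simp_all [triA, sg, zmod_two_univ, Fin.sum_univ_two]

lemma triB_orth (r : ℝ) (j k : Fin 3) (h : j ≠ k) : ∑ x, ∑ s, triB r x s j * triB r x s k = 0 := by
  fin_cases j <;> fin_cases k <;> simp_all [triB, sg, zmod_two_univ, Fin.sum_univ_two]

/-- The error weight of the triangle operators. -/
def triE (r : ℝ) (C : Fin 3 → Fin 3 → ℝ) : ℝ :=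
  r ^ 4 + C 0 1 + r ^ 4 * C 1 0 + r ^ 2 * C 0 2 + r ^ 4 * C 1 2 + r ^ 4 * C 2 0 + r ^ 2 * C 2 1

/-- The overlap of the triangle operators. -/
def triF (r : ℝ) (C : Fin 3 → Fin 3 → ℝ) : ℝ :=
  r ^ 4 + 4 * r ^ 2 + (r ^ 2 - 4) / (r ^ 2 + 4) * (C 0 1 + r ^ 4 * C 1 0) + r ^ 4 * (C 1 2 + C 2 0) -
    r ^ 2 * (C 0 2 + C 2 1)

lemma tri_weights (r : ℝ) (C : Fin 3 → Fin 3 → ℝ) (x y : ZMod 2) :
    ∑ q, lvlForm C (prodCoef (triA r) (triB r) x y q) (prodCoef (triA r) (triB r) x y q) =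
      if x = y then triE r C + 4 * r ^ 2 else triE r C := by
  rcases (by decide : ∀ u : ZMod 2, u = 0 ∨ u = 1) x with rfl | rfl <;>
    rcases (by decide : ∀ u : ZMod 2, u = 0 ∨ u = 1) y with rfl | rfl <;>
    simp only [lvlForm, prodCoef, triA, triB, sg, triE, Fintype.sum_prod_type, Fin.sum_univ_two,
      Fin.sum_univ_three] <;>
    simp [show ¬((1 : ZMod 2) = 0) by decide, show ¬((0 : ZMod 2) = 1) by decide] <;> ring

lemma tri_overlap (r : ℝ) (C : Fin 3 → Fin 3 → ℝ) :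
    ∑ q, ∑ q', triW r q q' *
      lvlForm C (prodCoef (triA r) (triB r) 0 0 q) (prodCoef (triA r) (triB r) 1 1 q') =
      triF r C := by
  have h : r ^ 2 + 4 ≠ 0 := (by positivity : (0 : ℝ) < r ^ 2 + 4).ne'
  simp only [lvlForm, prodCoef, triA, triB, sg, triF, triW, Fintype.sum_prod_type, Fin.sum_univ_two,
    Fin.sum_univ_three]
  simp [show ¬((1 : ZMod 2) = 0) by decide]
  field_simp
  ring

lemma tri_crit {r : ℝ} {C : Fin 3 → Fin 3 → ℝ} (hC : ∀ j k, j ≠ k → 0 ≤ C j k)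
    (h02 : C 0 2 ≤ 1 / 100) (h21 : C 2 1 ≤ 1 / 100) (h10 : C 1 0 ≤ 1 / 100)
    (hr2 : 2 ≤ r) (hru : 2 + 22 * C 0 1 ≤ r) :
    0 ≤ triE r C ∧ 0 < triF r C ∧ triF r C ≤ triE r C + 4 * r ^ 2 ∧
      triE r C * (triE r C + 4 * r ^ 2) ^ 3 < triF r C ^ 4 := by
  have c01 := hC 0 1 (by decide)
  have c10 := hC 1 0 (by decide)
  have c02 := hC 0 2 (by decide)
  have c20 := hC 2 0 (by decide)
  have c12 := hC 1 2 (by decide)
  have c21 := hC 2 1 (by decide)
  set s := r ^ 2 with hs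
  have hs4 : 4 ≤ s := by rw [hs]; nlinarith
  have hsu : 22 * C 0 1 ≤ s := by rw [hs]; nlinarith
  set E := triE r C with hE
  set κ := (s - 4) / (s + 4) with hκ
  have hr4 : r ^ 4 = s * s := by rw [hs]; ring
  have hEv : E = s * s + C 0 1 + s * s * C 1 0 + s * C 0 2 + s * s * C 1 2 + s * s * C 2 0 + s * C 2 1 := by
    rw [hE, triE, hr4]
  have hFv : triF r C = s * s + 4 * s + κ * (C 0 1 + s * s * C 1 0) + s * s * (C 1 2 + C 2 0) -
      s * (C 0 2 + C 2 1) := by
    rw [triF, hr4]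
  have hκ1 : κ ≤ 1 := (div_le_one (by linarith)).2 (by linarith)
  have hκ8 : (1 - κ) * s ≤ 8 := by
    rw [hκ, one_sub_div (by linarith), div_mul_eq_mul_div, div_le_iff₀ (by linarith)]
    nlinarith
  have hκ0 : 0 ≤ 1 - κ := by linarith
  have hss : 0 ≤ s * s := mul_self_nonneg s
  have hE0 : 0 ≤ E := by
    rw [hEv]
    have := mul_nonneg hss c10
    have := mul_nonneg hss c12
    have := mul_nonneg hss c20
    have := mul_nonneg (show 0 ≤ s by linarith) c02
    have := mul_nonneg (show 0 ≤ s by linarith) c21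
    linarith
  have hlow : E + (7 / 2) * s ≤ triF r C := by
    rw [hEv, hFv]
    have h1 : (1 - κ) * (s * s * C 1 0) ≤ 8 * (s * C 1 0) := by
      have := mul_le_mul_of_nonneg_right hκ8 (mul_nonneg (show 0 ≤ s by linarith) c10)
      nlinarith
    have h1' : s * C 1 0 ≤ s * (1 / 100) := mul_le_mul_of_nonneg_left h10 (by linarith)
    have h2 : (1 - κ) * C 0 1 ≤ (4 / 10) * s := by
      have := mul_le_mul_of_nonneg_left hsu hκ0
      nlinarith
    have h3 : s * C 0 2 ≤ s * (1 / 100) := mul_le_mul_of_nonneg_left h02 (by linarith)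
    have h4 : s * C 2 1 ≤ s * (1 / 100) := mul_le_mul_of_nonneg_left h21 (by linarith)
    nlinarith
  refine ⟨hE0, by linarith, ?_, ?_⟩
  · rw [hEv, hFv]
    nlinarith [mul_le_mul_of_nonneg_right hκ1 (show 0 ≤ C 0 1 + s * s * C 1 0 by positivity),
      mul_nonneg (show 0 ≤ s by linarith) c02, mul_nonneg (show 0 ≤ s by linarith) c21]
  · calc E * (E + 4 * s) ^ 3 < (E + (7 / 2) * s) ^ 4 := by
          nlinarith [mul_nonneg (pow_nonneg hE0 3) (show 0 ≤ s by linarith),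
            mul_nonneg (pow_nonneg hE0 2) (sq_nonneg s), mul_nonneg hE0 (pow_nonneg (show 0 ≤ s by linarith) 3),
            pow_pos (show 0 < s by linarith) 4]
      _ ≤ _ := pow_le_pow_left₀ (by linarith) hlow 4

lemma lvlForm_scale {J S T : Type} [Fintype J] (C : J → J → ℝ) {w : J → ℝ} (hw : ∀ j, w j ≠ 0)
    (A : ZMod 2 → S → J → ℝ) (B : ZMod 2 → T → J → ℝ) (x y x' y' : ZMod 2) (q q' : S × T) :
    lvlForm C (prodCoef (fun x s j => w j * A x s j) (fun x t j => (w j)⁻¹ * B x t j) x y q)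
      (prodCoef (fun x s j => w j * A x s j) (fun x t j => (w j)⁻¹ * B x t j) x' y' q') =
    lvlForm (fun j k => C j k * (w j / w k) ^ 2) (prodCoef A B x y q) (prodCoef A B x' y' q') := by
  simp only [lvlForm, prodCoef]
  have h : ∀ (j : J) (u v : ℝ), w j * u * ((w j)⁻¹ * v) = u * v := fun j u v => by
    have := hw j
    field_simp
  simp only [h]
  congr 1
  refine Finset.sum_congr rfl fun j _ => Finset.sum_congr rfl fun k _ => ?_
  split_ifs
  · rfl
  · ring

/-- A bad triangle gives a positive key rate. -/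
theorem keyPositive_triangle (hc : ∀ i j, i ≠ j → 0 ≤ c i j) {i j k : Fin d} (hij : i ≠ j)
    (hjk : j ≠ k) (hki : k ≠ i) (h : c i j * c j k * c k i < 1) : KeyPositive (rhoC c) := by
  have hd : 0 < d := Fin.pos i
  obtain ⟨ε, hε, hεP⟩ : ∃ ε : ℝ, 0 < ε ∧ (c i j + ε) * (c j k + ε) * (c k i + ε) < 1 := by
    have hcont : Continuous fun ε : ℝ => (c i j + ε) * (c j k + ε) * (c k i + ε) := by fun_prop
    have h0 : Filter.Tendsto (fun ε : ℝ => (c i j + ε) * (c j k + ε) * (c k i + ε))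
        (nhdsWithin 0 (Set.Ioi 0)) (nhds (c i j * c j k * c k i)) :=
      (by simpa using hcont.tendsto 0 : Filter.Tendsto
        (fun ε : ℝ => (c i j + ε) * (c j k + ε) * (c k i + ε)) (nhds 0)
        (nhds (c i j * c j k * c k i))).mono_left nhdsWithin_le_nhds
    obtain ⟨ε, hε⟩ := ((h0.eventually_lt_const h).and self_mem_nhdsWithin).exists
    exact ⟨ε, hε.2, hε.1⟩
  have p1 : 0 < c i j + ε := by linarith [hc i j hij]
  have p2 : 0 < c j k + ε := by linarith [hc j k hjk]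
  have p3 : 0 < c k i + ε := by linarith [hc k i hki]
  set P := (c i j + ε) * (c j k + ε) * (c k i + ε)
  have hP : 0 < P := by positivity
  set θ := (1 + P) / 2 with hθ
  have hθ0 : 0 < θ := by positivity
  have hθ1 : θ < 1 := by linarith
  have hθP : P < θ ^ 2 := by
    have : 0 < (1 - P) ^ 2 := pow_pos (by linarith) 2
    rw [hθ]; nlinarith
  set ρ₁ := θ / (c i j + ε) with hρ₁
  set ρ₂ := θ / (c j k + ε) with hρ₂
  set t := P / θ ^ 2 with ht
  have ht1 : t < 1 := (div_lt_one (by positivity)).2 hθP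
  set η := max θ t with hη
  have hη1 : η < 1 := max_lt hθ1 ht1
  obtain ⟨K, hK⟩ := exists_pow_lt_of_lt_one (show (0 : ℝ) < 1 / 100 by norm_num) hη1
  have hK' : η ^ (K + 1) ≤ 1 / 100 :=
    ((pow_le_pow_of_le_one (by positivity) hη1.le (Nat.le_succ K)).trans_lt hK).le
  set cfg : Fin 3 → Fin (K + 1) → Fin d := fun a _ => ![i, k, j] a with hcfg'
  have hcfg : ∀ a b, a ≠ b → ∀ p, cfg a p ≠ cfg b p := by
    intro a b hab p
    fin_cases a <;> fin_cases b <;>
      simp_all [cfg, hij, hjk, hki, hij.symm, hjk.symm, hki.symm]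
  set v : Fin 3 → ℝ := ![√ρ₁, (√ρ₂)⁻¹, 1] with hv
  have hρ1 : 0 < ρ₁ := by positivity
  have hρ2 : 0 < ρ₂ := by positivity
  have hv0 : ∀ a, 0 < v a := by
    intro a
    fin_cases a <;> simp [v, Real.sqrt_pos.2 hρ1, Real.sqrt_pos.2 hρ2]
  set w : Fin 3 → ℝ := fun a => v a ^ (K + 1) with hw
  set C : Fin 3 → Fin 3 → ℝ := fun a b => (∏ p, c (cfg a p) (cfg b p)) * (w a / w b) ^ 2 with hC
  have hCv : ∀ a b, C a b = (c (![i, k, j] a) (![i, k, j] b) * (v a / v b) ^ 2) ^ (K + 1) := by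
    intro a b
    simp only [C, cfg, w, Finset.prod_const, Finset.card_univ, Fintype.card_fin, ← div_pow, mul_pow,
      ← pow_mul, mul_comm (K + 1) 2]
  have hC0 : ∀ a b, a ≠ b → 0 ≤ C a b := fun a b hab =>
    mul_nonneg (Finset.prod_nonneg fun p _ => hc _ _ (hcfg a b hab p)) (sq_nonneg _)
  have hb : ∀ x : ℝ, 0 ≤ x → x ≤ η → x ^ (K + 1) ≤ 1 / 100 := fun x h0 hx =>
    (pow_le_pow_left₀ h0 hx _).trans hK'
  have h02 : C 0 2 ≤ 1 / 100 := by
    rw [hCv]
    refine hb _ (mul_nonneg (hc _ _ (by simpa using hij)) (sq_nonneg _)) ?_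
    simp only [v, Matrix.cons_val_zero, Matrix.cons_val, div_one, Real.sq_sqrt hρ1.le]
    calc c i j * ρ₁ ≤ (c i j + ε) * ρ₁ := mul_le_mul_of_nonneg_right (by linarith) hρ1.le
      _ = θ := by rw [hρ₁]; field_simp
      _ ≤ η := le_max_left _ _
  have h21 : C 2 1 ≤ 1 / 100 := by
    rw [hCv]
    refine hb _ (mul_nonneg (hc _ _ (by simpa using hjk)) (sq_nonneg _)) ?_
    simp only [v, Matrix.cons_val_one, Matrix.cons_val, one_div, inv_inv, Real.sq_sqrt hρ2.le]
    calc c j k * ρ₂ ≤ (c j k + ε) * ρ₂ := mul_le_mul_of_nonneg_right (by linarith) hρ2.le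
      _ = θ := by rw [hρ₂]; field_simp
      _ ≤ η := le_max_left _ _
  have h10 : C 1 0 ≤ 1 / 100 := by
    rw [hCv]
    refine hb _ (mul_nonneg (hc _ _ (by simpa using hki)) (sq_nonneg _)) ?_
    simp only [v, Matrix.cons_val_one, Matrix.cons_val_zero, Matrix.cons_val, div_pow, inv_pow,
      Real.sq_sqrt hρ1.le, Real.sq_sqrt hρ2.le]
    calc c k i * (ρ₂⁻¹ / ρ₁) ≤ (c k i + ε) * (ρ₂⁻¹ / ρ₁) :=
          mul_le_mul_of_nonneg_right (by linarith) (by positivity)
      _ = t := by rw [ht, hρ₁, hρ₂]; field_simp; simp only [P]; ring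
      _ ≤ η := le_max_right _ _
  set r := 2 + 22 * C 0 1 with hr
  have hr2 : 2 ≤ r := by linarith [hC0 0 1 (by decide)]
  obtain ⟨hE, hF, hFa, hcrit⟩ := tri_crit hC0 h02 h21 h10 hr2 le_rfl
  have hwne : ∀ a, w a ≠ 0 := fun a => (pow_pos (hv0 a) _).ne'
  refine keyPositive_of_levels hd hc (Nat.succ_pos K) cfg hcfg
    (fun x s a => w a * triA r x s a) (fun x s a => (w a)⁻¹ * triB r x s a) ?_ ?_ (triW r)
    (triW_orth r) (a := triE r C + 4 * r ^ 2) (e := triE r C) (F := triF r C) ?_ ?_ hE hF hFa hcrit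
  · intro a b hab
    have h' : ∀ x s, w a * triA r x s a * (w b * triA r x s b) = w a * w b * (triA r x s a * triA r x s b) := fun x s => by ring
    simp only [h', ← Finset.mul_sum, triA_orth r a b hab, mul_zero]
  · intro a b hab
    have h' : ∀ x s, (w a)⁻¹ * triB r x s a * ((w b)⁻¹ * triB r x s b) = (w a)⁻¹ * (w b)⁻¹ * (triB r x s a * triB r x s b) := fun x s => by ring
    simp only [h', ← Finset.mul_sum, triB_orth r a b hab, mul_zero]
  · intro x y
    simp only [lvlForm_scale _ hwne, ← tri_weights r C x y]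
    rfl
  · simp only [lvlForm_scale _ hwne, ← tri_overlap r C]
    rfl

end Vale.P372
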