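import Vale.Agent.P372.States

/-!
# Separability on the three-level family
-/

noncomputable section

open scoped BigOperators ComplexOrder Classical
open Matrix

namespace Vale.P372

lemma separable_of_finite {d : ℕ} {ρ : Matrix (Fin d × Fin d) (Fin d × Fin d) ℂ} {I : Type}
    [Fintype I] (p : I → ℝ) (u v : I → Fin d → ℂ) (hp : ∀ i, 0 ≤ p i)
    (htr : ∑ x, ρ x x = 1)
    (hu : ∀ i, ∑ a, u i a * starRingEnd ℂ (u i a) = 1)
    (hv : ∀ i, ∑ a, v i a * starRingEnd ℂ (v i a) = 1)
    (hρ : ∀ a b a' b', ρ (a, b) (a', b') = ∑ i, (p i : ℂ) *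
      (u i a * starRingEnd ℂ (u i a')) * (v i b * starRingEnd ℂ (v i b'))) :
    IsSeparable ρ := by
  set e := Fintype.equivFin I
  refine ⟨Fintype.card I, fun i => p (e.symm i),
    fun i => Matrix.vecMulVec (u (e.symm i)) (star (u (e.symm i))),
    fun i => Matrix.vecMulVec (v (e.symm i)) (star (v (e.symm i))), fun i => hp _, ?_, ?_, ?_, ?_⟩
  · rw [Equiv.sum_comp e.symm p]
    have h : ((∑ i, p i : ℝ) : ℂ) = 1 := by
      rw [← htr, Fintype.sum_prod_type]
      simp only [hρ]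
      rw [Finset.sum_congr rfl fun a _ => Finset.sum_comm, Finset.sum_comm]
      push_cast
      refine Finset.sum_congr rfl fun i _ => ?_
      simp only [← Finset.mul_sum, hv, mul_one, hu]
    exact_mod_cast h
  · exact fun i => ⟨Matrix.posSemidef_vecMulVec_self_star _, hu _⟩
  · exact fun i => ⟨Matrix.posSemidef_vecMulVec_self_star _, hv _⟩
  · intro a b a' b'
    rw [hρ, ← Equiv.sum_comp e.symm]
    simp [Matrix.vecMulVec_apply]

/-- Phases `ω ^ (t * p)` with exponents `0, 1, 3` modulo `7`. -/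
def sidon : Fin 3 → ZMod 7 := ![0, 1, 3]

lemma sidon_sum (a b a' b' : Fin 3) :
    ∑ t : ZMod 7, ZMod.stdAddChar (t * (sidon a - sidon b - (sidon a' - sidon b'))) =
      if (a = b ∧ a' = b') ∨ (a = a' ∧ b = b') then (7 : ℂ) else 0 := by
  rw [AddChar.sum_mulShift _ (ZMod.isPrimitive_stdAddChar 7)]
  have key : ∀ a b a' b' : Fin 3, (sidon a - sidon b - (sidon a' - sidon b') = 0) ↔
      ((a = b ∧ a' = b') ∨ (a = a' ∧ b = b')) := by unfold sidon; decide
  rw [ZMod.card]
  simp only [key]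
  split_ifs <;> simp

theorem separable_three {c : Fin 3 → Fin 3 → ℝ} (hc : ∀ i j, i ≠ j → 0 ≤ c i j)
    (h2 : ∀ i j, i ≠ j → 1 ≤ c i j * c j i)
    (h3 : ∀ i j k, i ≠ j → j ≠ k → k ≠ i → 1 ≤ c i j * c j k * c k i) :
    IsSeparable (rhoC c) := by
  have hpos : ∀ i j, i ≠ j → 0 < c i j := fun i j h => lt_of_le_of_ne (hc i j h) fun h0 => by
    have := h2 i j h; rw [← h0] at this; norm_num at this
  set w : Fin 3 → ℝ := ![1, min (c 1 0) (c 1 2 * c 2 0), min (c 2 0) (c 2 1 * c 1 0)] with hw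
  have c10 := hpos 1 0 (by decide)
  have c20 := hpos 2 0 (by decide)
  have c12 := hpos 1 2 (by decide)
  have c21 := hpos 2 1 (by decide)
  have c01 := hpos 0 1 (by decide)
  have c02 := hpos 0 2 (by decide)
  have hw0 : ∀ i, 0 < w i := by
    intro i
    fin_cases i <;> simp [w, lt_min_iff, c10, c20, mul_pos c12 c20, mul_pos c21 c10]
  have hwle : ∀ i j, i ≠ j → w i ≤ c i j * w j := by
    intro i j h
    fin_cases i <;> fin_cases j <;> first | exact absurd rfl h | simp only [w, Matrix.cons_val_zero,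
      Matrix.cons_val_one, Matrix.cons_val, mul_one, mul_min_of_nonneg _ _ c01.le,
      mul_min_of_nonneg _ _ c02.le, mul_min_of_nonneg _ _ c12.le, mul_min_of_nonneg _ _ c21.le,
      Fin.zero_eta, Fin.mk_one, Fin.reduceFinMk]
    · exact le_min (h2 0 1 (by decide)) (by linarith [h3 0 1 2 (by decide) (by decide) (by decide)])
    · exact le_min (h2 0 2 (by decide)) (by linarith [h3 0 2 1 (by decide) (by decide) (by decide)])
    · exact min_le_left _ _
    · refine le_min (min_le_right _ _) ((min_le_left _ _).trans ?_)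
      nlinarith [h2 1 2 (by decide)]
    · exact min_le_left _ _
    · refine le_min (min_le_right _ _) ((min_le_left _ _).trans ?_)
      nlinarith [h2 2 1 (by decide)]
  set N := normC c with hN
  have hN0 : 0 < N := normC_pos (by norm_num) hc
  set Z₁ := ∑ i, w i with hZ₁
  set Z₂ := ∑ i, (w i)⁻¹ with hZ₂
  have hZ₁0 : 0 < Z₁ := Finset.sum_pos (fun i _ => hw0 i) Finset.univ_nonempty
  have hZ₂0 : 0 < Z₂ := Finset.sum_pos (fun i _ => inv_pos.2 (hw0 i)) Finset.univ_nonempty
  set χ : ZMod 7 → ℂ := fun x => ZMod.stdAddChar x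
  have hχ : ∀ x, starRingEnd ℂ (χ x) = χ (-x) := fun x => (AddChar.map_neg_eq_conj _ x).symm
  have hχm : ∀ x y, χ x * χ y = χ (x + y) := fun x y => (AddChar.map_add_eq_mul _ x y).symm
  refine separable_of_finite (I := ZMod 7 ⊕ Fin 3 × Fin 3)
    (Sum.elim (fun _ => Z₁ * Z₂ / (7 * N))
      fun q => if q.1 = q.2 then 0 else (c q.1 q.2 - w q.1 / w q.2) / N)
    (Sum.elim (fun t a => ((√(w a / Z₁) : ℝ) : ℂ) * χ (t * sidon a))
      fun q a => if a = q.1 then 1 else 0)
    (Sum.elim (fun t b => ((√((w b)⁻¹ / Z₂) : ℝ) : ℂ) * χ (-(t * sidon b)))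
      fun q b => if b = q.2 then 1 else 0) ?_ (rhoC_trace (by norm_num) hc) ?_ ?_ ?_
  · rintro (t | q)
    · simp only [Sum.elim_inl]; positivity
    · simp only [Sum.elim_inr]
      split_ifs with h
      · exact le_rfl
      · refine div_nonneg (sub_nonneg.2 ?_) hN0.le
        rw [div_le_iff₀ (hw0 _)]
        exact hwle _ _ h
  · rintro (t | q)
    · simp only [Sum.elim_inl, map_mul, Complex.conj_ofReal, hχ, mul_mul_mul_comm, hχm,
        add_neg_cancel, χ, AddChar.map_zero_eq_one, mul_one, ← Complex.ofReal_mul,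
        ← Complex.ofReal_sum]
      rw [Finset.sum_congr rfl fun a _ => Real.mul_self_sqrt (div_nonneg (hw0 a).le hZ₁0.le),
        ← Finset.sum_div, ← hZ₁, div_self hZ₁0.ne', Complex.ofReal_one]
    · simp [Sum.elim_inr]
  · rintro (t | q)
    · simp only [Sum.elim_inl, map_mul, Complex.conj_ofReal, hχ, mul_mul_mul_comm, hχm,
        add_neg_cancel, neg_add_cancel, χ, AddChar.map_zero_eq_one, mul_one, neg_neg,
        ← Complex.ofReal_mul, ← Complex.ofReal_sum]
      rw [Finset.sum_congr rfl fun a _ => Real.mul_self_sqrt (div_nonneg (inv_nonneg.2 (hw0 a).le) hZ₂0.le),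
        ← Finset.sum_div, ← hZ₂, div_self hZ₂0.ne', Complex.ofReal_one]
    · simp [Sum.elim_inr]
  intro a b a' b'
  rw [Fintype.sum_sum_type]
  simp only [Sum.elim_inl, Sum.elim_inr]
  have hphase : ∀ t : ZMod 7, χ (t * sidon a) * χ (-(t * sidon a')) *
      (χ (-(t * sidon b)) * χ (t * sidon b')) = χ (t * (sidon a - sidon b - (sidon a' - sidon b'))) := by
    intro t
    rw [hχm, hχm, hχm]
    congr 1
    ring
  have h1 : ∑ t : ZMod 7, ((Z₁ * Z₂ / (7 * N) : ℝ) : ℂ) *
      (((√(w a / Z₁) : ℝ) : ℂ) * χ (t * sidon a) *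
        starRingEnd ℂ (((√(w a' / Z₁) : ℝ) : ℂ) * χ (t * sidon a'))) *
      (((√((w b)⁻¹ / Z₂) : ℝ) : ℂ) * χ (-(t * sidon b)) *
        starRingEnd ℂ (((√((w b')⁻¹ / Z₂) : ℝ) : ℂ) * χ (-(t * sidon b')))) =
      ((Z₁ * Z₂ / (7 * N) * (√(w a / Z₁) * √(w a' / Z₁) * (√((w b)⁻¹ / Z₂) * √((w b')⁻¹ / Z₂))) : ℝ) : ℂ) *
        if (a = b ∧ a' = b') ∨ (a = a' ∧ b = b') then (7 : ℂ) else 0 := by
    refine Eq.trans ?_ (congrArg _ (sidon_sum a b a' b'))
    rw [Finset.mul_sum (ι := ZMod 7)]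
    refine Finset.sum_congr rfl fun t _ => ?_
    simp only [map_mul, Complex.conj_ofReal, hχ, neg_neg]
    rw [show ZMod.stdAddChar (t * (sidon a - sidon b - (sidon a' - sidon b'))) = _ from (hphase t).symm]
    push_cast
    ring
  rw [h1, rhoC_apply, ← hN]
  have h2' : ∑ q : Fin 3 × Fin 3, (((if q.1 = q.2 then 0 else (c q.1 q.2 - w q.1 / w q.2) / N : ℝ)) : ℂ) *
      ((if a = q.1 then 1 else 0) * starRingEnd ℂ (if a' = q.1 then 1 else 0)) *
      ((if b = q.2 then 1 else 0) * starRingEnd ℂ (if b' = q.2 then 1 else 0)) =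
      if (a, b) = (a', b') then ((if a = b then 0 else (c a b - w a / w b) / N : ℝ) : ℂ) else 0 := by
    rw [Finset.sum_eq_single (a, b)]
    · by_cases h : (a, b) = (a', b')
      · obtain ⟨rfl, rfl⟩ := Prod.mk.injEq _ _ _ _ ▸ h
        simp
      · rw [if_neg h]
        by_cases ha : a' = a
        · by_cases hb : b' = b
          · exact absurd (by rw [ha, hb]) h
          · simp [hb]
        · simp [ha]
    · intro q _ hq
      by_cases ha : a = q.1
      · by_cases hb : b = q.2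
        · exact absurd (Prod.ext ha.symm hb.symm) hq
        · simp [hb]
      · simp [ha]
    · simp
  rw [h2']
  have hroot : ∀ x, √(w x / Z₁) * √((w x)⁻¹ / Z₂) = √(1 / (Z₁ * Z₂)) := fun x => by
    rw [← Real.sqrt_mul (div_nonneg (hw0 x).le hZ₁0.le)]
    congr 1
    have := (hw0 x).ne'
    field_simp
  by_cases hd : a = b ∧ a' = b'
  · obtain ⟨rfl, rfl⟩ := hd
    simp only [and_self, true_or, if_true]
    have hd' : (if (a, a) = (a', a') then ((if a = a then 0 else (c a a - w a / w a) / N : ℝ) : ℂ) else 0) = 0 := by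
      simp
    simp only [if_true] at hd'
    rw [hd', add_zero, mul_mul_mul_comm (√(w a / Z₁)), hroot, hroot, Real.mul_self_sqrt (by positivity),
      show ((7 : ℂ)) = ((7 : ℝ) : ℂ) by norm_num, ← Complex.ofReal_mul]
    congr 1
    field_simp
  · simp only [hd, if_false, false_or]
    by_cases he : (a, b) = (a', b')
    · obtain ⟨rfl, rfl⟩ := Prod.mk.injEq _ _ _ _ ▸ he
      have hab : a ≠ b := fun e => hd ⟨e, e⟩
      simp only [and_self, if_true, hab, if_false]
      rw [Real.mul_self_sqrt (div_nonneg (hw0 a).le hZ₁0.le),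
        Real.mul_self_sqrt (div_nonneg (inv_nonneg.2 (hw0 b).le) hZ₂0.le),
        show ((7 : ℂ)) = ((7 : ℝ) : ℂ) by norm_num, ← Complex.ofReal_mul, ← Complex.ofReal_add]
      congr 1
      have := (hw0 b).ne'
      field_simp
      ring
    · rw [if_neg he, if_neg (fun q => he (by rw [q.1, q.2])), if_neg he]
      simp

end Vale.P372
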