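import Vale.Agent.P372.Gadget
import Vale.Agent.P372.Separable

/-!
# Key from entangled states of the family `rhoC`
-/

noncomputable section

open scoped BigOperators ComplexOrder Classical
open Matrix

namespace Vale.P372

theorem family_keyPositive {d : ℕ} {c : Fin d → Fin d → ℝ} (hc : ∀ i j, i ≠ j → 0 ≤ c i j)
    (h : (∃ i j, i ≠ j ∧ c i j * c j i < 1) ∨
      (∃ i j k, i ≠ j ∧ j ≠ k ∧ k ≠ i ∧ c i j * c j k * c k i < 1)) :
    KeyPositive (rhoC c) := by
  rcases h with ⟨i, j, hij, h⟩ | ⟨i, j, k, hij, hjk, hki, h⟩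
  · exact keyPositive_pair hc hij h
  · exact keyPositive_triangle hc hij hjk hki h

theorem three_dichotomy {c : Fin 3 → Fin 3 → ℝ} (hc : ∀ i j, i ≠ j → 0 ≤ c i j) :
    IsSeparable (rhoC c) ∨ KeyPositive (rhoC c) := by
  by_cases h : (∃ i j, i ≠ j ∧ c i j * c j i < 1) ∨
      (∃ i j k, i ≠ j ∧ j ≠ k ∧ k ≠ i ∧ c i j * c j k * c k i < 1)
  · exact Or.inr (family_keyPositive hc h)
  · push_neg at h
    exact Or.inl (separable_three hc h.1 h.2)

theorem horodecki_keyPositive {α : ℝ} (h3 : 3 < α) (h5 : α ≤ 5) :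
    KeyPositive (rhoC (horodeckiC α)) := by
  refine family_keyPositive (fun i j _ => ?_) (Or.inr ⟨0, 2, 1, by decide, by decide, by decide, ?_⟩)
  · unfold horodeckiC
    split_ifs <;> linarith
  · have e1 : horodeckiC α 0 2 = (5 - α) / 2 := by
      rw [horodeckiC, if_neg (by decide)]
    have e2 : horodeckiC α 2 1 = (5 - α) / 2 := by
      rw [horodeckiC, if_neg (by decide)]
    have e3 : horodeckiC α 1 0 = (5 - α) / 2 := by
      rw [horodeckiC, if_neg (by decide)]
    rw [e1, e2, e3]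
    calc (5 - α) / 2 * ((5 - α) / 2) * ((5 - α) / 2) = ((5 - α) / 2) ^ 3 := by ring
      _ < 1 := pow_lt_one₀ (by linarith) (by linarith) (by norm_num)

end Vale.P372
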