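import Vale.Agent.P372.Defs

/-!
# The trace norm is realised by pairing with a contraction
-/

noncomputable section

open scoped BigOperators ComplexOrder Classical
open Matrix

namespace Vale.P372

variable {ι : Type} [Fintype ι]

/-- Squared norm of a vector. -/
def nsq (v : ι → ℂ) : ℝ := ∑ i, ‖v i‖ ^ 2

/-- Rank one positive matrix of a vector. -/
def outer (v : ι → ℂ) : Matrix ι ι ℂ := fun i j => v i * starRingEnd ℂ (v j)

/-- A matrix bounded by one as a sesquilinear form. -/
def Contr (W : Matrix ι ι ℂ) : Prop :=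
  ∀ u v : ι → ℂ, ‖star u ⬝ᵥ (W *ᵥ v)‖ ≤ √(nsq u) * √(nsq v)

lemma nsq_nonneg (v : ι → ℂ) : 0 ≤ nsq v := Finset.sum_nonneg fun i _ => by positivity

lemma star_dot_self (v : ι → ℂ) : star v ⬝ᵥ v = (nsq v : ℂ) := by
  simp only [dotProduct, nsq, Complex.ofReal_sum]
  refine Finset.sum_congr rfl fun i _ => ?_
  rw [Pi.star_apply, Complex.ofReal_pow]
  exact Complex.conj_mul' (v i)

lemma norm_star_dot_le (u v : ι → ℂ) : ‖star u ⬝ᵥ v‖ ≤ √(nsq u) * √(nsq v) := by
  calc ‖star u ⬝ᵥ v‖ ≤ ∑ i, ‖u i‖ * ‖v i‖ := by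
        refine (norm_sum_le _ _).trans (le_of_eq (Finset.sum_congr rfl fun i _ => ?_))
        simp
    _ ≤ _ := Real.sum_mul_le_sqrt_mul_sqrt _ _ _

lemma exists_contr_traceNorm (X : Matrix ι ι ℂ) :
    ∃ W, Contr W ∧ traceNorm X = (trace (W * X)).re := by
  set hH := isHermitian_conjTranspose_mul_self X
  set ev : ι → ℝ := hH.eigenvalues
  set V : Matrix ι ι ℂ := (hH.eigenvectorUnitary : Matrix ι ι ℂ)
  have hspec : Xᴴ * X = V * diagonal (fun i => (ev i : ℂ)) * Vᴴ := by
    have h := hH.spectral_theorem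
    rw [Unitary.conjStarAlgAut_apply] at h
    exact h
  have hVV : Vᴴ * V = 1 := by
    have := Matrix.mem_unitaryGroup_iff'.1 hH.eigenvectorUnitary.2
    rwa [star_eq_conjTranspose] at this
  have hVV' : V * Vᴴ = 1 := by
    have := Matrix.mem_unitaryGroup_iff.1 hH.eigenvectorUnitary.2
    rwa [star_eq_conjTranspose] at this
  have hev : ∀ i, 0 ≤ ev i := fun i =>
    (posSemidef_conjTranspose_mul_self X).eigenvalues_nonneg i
  set dv : ι → ℂ := fun i => (((√(ev i))⁻¹ : ℝ) : ℂ)
  refine ⟨V * diagonal dv * Vᴴ * Xᴴ, ?_, ?_⟩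
  · intro u v
    set a : ι → ℂ := Vᴴ *ᵥ u
    set w : ι → ℂ := X *ᵥ (V *ᵥ (diagonal dv *ᵥ a))
    have hsa : nsq a = nsq u := by
      have h : star a ⬝ᵥ a = star u ⬝ᵥ u := by
        simp only [a, star_mulVec, conjTranspose_conjTranspose]
        rw [dotProduct_mulVec, vecMul_vecMul, hVV', vecMul_one]
      rw [star_dot_self, star_dot_self] at h
      exact_mod_cast h
    have hform : star u ⬝ᵥ ((V * diagonal dv * Vᴴ * Xᴴ) *ᵥ v) = star w ⬝ᵥ v := by
      have hd : star dv = dv := by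
        ext i
        simp [dv]
      simp only [w, a, mulVec_mulVec, star_mulVec, conjTranspose_mul, conjTranspose_conjTranspose,
        diagonal_conjTranspose, hd, dotProduct_mulVec, Matrix.mul_assoc]
    have hw : nsq w ≤ nsq u := by
      have h : (nsq w : ℂ) = ∑ i, (starRingEnd ℂ (a i) * dv i) * (ev i : ℂ) * (dv i * a i) := by
        rw [← star_dot_self]
        simp only [w]
        rw [star_mulVec, dotProduct_mulVec, vecMul_vecMul, hspec, star_mulVec, vecMul_vecMul,
          ← Matrix.mul_assoc, ← Matrix.mul_assoc, hVV, one_mul, ← dotProduct_mulVec,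
          ← mulVec_mulVec, mulVec_mulVec _ Vᴴ V, hVV, one_mulVec]
        simp only [dotProduct, mulVec_diagonal, Pi.star_apply, star_mul', dv]
        refine Finset.sum_congr rfl fun i _ => ?_
        simp only [Complex.star_def, Complex.conj_ofReal]
        ring
      have h2 : nsq w = ∑ i, ((√(ev i))⁻¹ ^ 2 * ev i) * ‖a i‖ ^ 2 := by
        have : (nsq w : ℂ) = ((∑ i, ((√(ev i))⁻¹ ^ 2 * ev i) * ‖a i‖ ^ 2 : ℝ) : ℂ) := by
          rw [h, Complex.ofReal_sum]
          refine Finset.sum_congr rfl fun i _ => ?_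
          simp only [Complex.ofReal_mul, Complex.ofReal_pow, dv, ← Complex.conj_mul']
          ring
        exact_mod_cast this
      rw [h2, ← hsa]
      refine Finset.sum_le_sum fun i _ => ?_
      have hle : (√(ev i))⁻¹ ^ 2 * ev i ≤ 1 := by
        rw [inv_pow, Real.sq_sqrt (hev i)]
        exact inv_mul_le_one
      exact mul_le_of_le_one_left (by positivity) hle
    rw [hform]
    exact (norm_star_dot_le w v).trans
      (mul_le_mul_of_nonneg_right (Real.sqrt_le_sqrt hw) (Real.sqrt_nonneg _))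
  · rw [Matrix.mul_assoc _ Xᴴ X, hspec]
    rw [show V * diagonal dv * Vᴴ * (V * diagonal (fun i => (ev i : ℂ)) * Vᴴ) =
        V * (diagonal dv * diagonal (fun i => (ev i : ℂ))) * Vᴴ by
      simp only [Matrix.mul_assoc]
      rw [← Matrix.mul_assoc Vᴴ V, hVV, Matrix.one_mul]]
    rw [trace_mul_cycle, hVV, Matrix.one_mul, diagonal_mul_diagonal, trace_diagonal,
      Complex.re_sum]
    refine Finset.sum_congr rfl fun i _ => ?_
    simp only [dv, ← Complex.ofReal_mul, Complex.ofReal_re]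
    rw [inv_mul_eq_div, Real.div_sqrt]

lemma traceNorm_le {X : Matrix ι ι ℂ} {B : ℝ}
    (h : ∀ W, Contr W → ‖trace (W * X)‖ ≤ B) : traceNorm X ≤ B := by
  obtain ⟨W, hW, hX⟩ := exists_contr_traceNorm X
  rw [hX]
  exact (Complex.re_le_norm _).trans (h W hW)

lemma trace_mul_outer (W : Matrix ι ι ℂ) (v : ι → ℂ) :
    trace (W * outer v) = star v ⬝ᵥ (W *ᵥ v) := by
  simp only [trace, diag, mul_apply, outer, dotProduct, mulVec, Pi.star_apply, Finset.mul_sum]
  refine Finset.sum_congr rfl fun i _ => Finset.sum_congr rfl fun j _ => ?_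
  rw [Complex.star_def]
  ring

lemma Contr.outer_le {W : Matrix ι ι ℂ} (hW : Contr W) (v : ι → ℂ) :
    ‖trace (W * outer v)‖ ≤ nsq v := by
  rw [trace_mul_outer]
  refine (hW v v).trans ?_
  rw [Real.mul_self_sqrt (nsq_nonneg v)]

lemma Contr.outer_sub_le {W : Matrix ι ι ℂ} (hW : Contr W) (u v : ι → ℂ) :
    ‖trace (W * outer u) - trace (W * outer v)‖ ≤ √(nsq (u - v)) * (√(nsq u) + √(nsq v)) := by
  have h : trace (W * outer u) - trace (W * outer v) =
      star (u - v) ⬝ᵥ (W *ᵥ u) + star v ⬝ᵥ (W *ᵥ (u - v)) := by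
    rw [trace_mul_outer, trace_mul_outer, star_sub, sub_dotProduct, mulVec_sub, dotProduct_sub]
    abel
  rw [h, mul_add]
  refine (norm_add_le _ _).trans (add_le_add (hW _ _) ?_)
  rw [mul_comm]
  exact hW _ _

lemma outer_posSemidef (v : ι → ℂ) : (outer v).PosSemidef :=
  posSemidef_vecMulVec_self_star v

lemma trace_outer (v : ι → ℂ) : trace (outer v) = (nsq v : ℂ) := by
  simp only [trace, diag, outer, nsq, Complex.ofReal_sum]
  refine Finset.sum_congr rfl fun i _ => ?_
  rw [Complex.ofReal_pow, Complex.mul_conj']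

end Vale.P372
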