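import Vale.Agent.P372.Codes
import Vale.Agent.P372.TraceNorm

/-!
# Security of the linear hashing against a block source
-/

noncomputable section

open scoped BigOperators ComplexOrder Classical
open Matrix

namespace Vale.P372

variable {r ℓ k : ℕ}

/-- Bits as Booleans. -/
def kbEquiv (ℓ : ℕ) : (Fin ℓ → ZMod 2) ≃ Key ℓ :=
  Equiv.arrowCongr (Equiv.refl _) finTwoEquiv

variable {E E' : Type} [Fintype E] [Fintype E']

/-- A vector next to a syndrome. -/
def put (emb : (Fin r → ZMod 2) × E ≃ E') (s : Fin r → ZMod 2) (v : E → ℂ) : E' → ℂ := fun e =>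
  if (emb.symm e).1 = s then v (emb.symm e).2 else 0

/-- A vector next to two keys. -/
def keyed (a b : Key ℓ) (v : E' → ℂ) : Key ℓ × Key ℓ × E' → ℂ := fun i =>
  if i.1 = a ∧ i.2.1 = b then v i.2.2 else 0

lemma nsq_put (emb : (Fin r → ZMod 2) × E ≃ E') (s : Fin r → ZMod 2) (v : E → ℂ) :
    nsq (put emb s v) = nsq v := by
  unfold nsq put
  rw [← Equiv.sum_comp emb, Fintype.sum_prod_type, Finset.sum_eq_single s]
  · simp
  · intro t _ ht
    simp [ht]
  · simp

lemma nsq_keyed (a b : Key ℓ) (v : E' → ℂ) : nsq (keyed a b v) = nsq v := by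
  unfold nsq keyed
  rw [Fintype.sum_prod_type, Finset.sum_eq_single a, Fintype.sum_prod_type,
    Finset.sum_eq_single b] <;> simp +contextual

omit [Fintype E] [Fintype E'] in
lemma keyed_put_sub (a b : Key ℓ) (emb : (Fin r → ZMod 2) × E ≃ E') (s : Fin r → ZMod 2)
    (u v : E → ℂ) :
    keyed a b (put emb s u) - keyed a b (put emb s v) = keyed a b (put emb s (u - v)) := by
  funext i
  simp only [keyed, put, Pi.sub_apply]
  split_ifs <;> simp

omit [Fintype E'] in
lemma idealState_outer (v : E' → ℂ) :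
    idealState ℓ (outer v) = ∑ z : Key ℓ, (1 / 2 ^ ℓ : ℂ) • outer (keyed z z v) := by
  funext i j
  rw [Matrix.sum_apply]
  simp only [Matrix.smul_apply, smul_eq_mul, idealState, outer, keyed]
  rw [Finset.sum_eq_single i.1]
  · by_cases h : i.1 = i.2.1 ∧ j.1 = j.2.1 ∧ i.1 = j.1
    · rw [if_pos h, if_pos ⟨rfl, h.1.symm⟩, if_pos ⟨h.2.2.symm, h.2.1.symm.trans h.2.2.symm⟩]
    · rw [if_neg h]
      by_cases h1 : i.2.1 = i.1
      · rw [if_pos ⟨rfl, h1⟩, if_neg]
        · simp
        · rintro ⟨a, b⟩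
          exact h ⟨h1.symm, a.trans b.symm, a.symm⟩
      · rw [if_neg (fun q => h1 q.2)]
        simp
  · intro z _ hz
    rw [if_neg (fun q => hz q.1.symm)]
    simp
  · simp

omit [Fintype E'] in
lemma idealState_add (σ τ : Matrix E' E' ℂ) :
    idealState ℓ (σ + τ) = idealState ℓ σ + idealState ℓ τ := by
  funext i j
  simp only [idealState, Matrix.add_apply]
  split_ifs <;> simp [mul_add]

omit [Fintype E'] in
lemma idealState_smul (c : ℂ) (σ : Matrix E' E' ℂ) :
    idealState ℓ (c • σ) = c • idealState ℓ σ := by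
  funext i j
  simp only [idealState, Matrix.smul_apply, smul_eq_mul]
  split_ifs <;> ring

lemma idealState_sum {ι : Type} (s : Finset ι) (σ : ι → Matrix E' E' ℂ) :
    idealState ℓ (∑ i ∈ s, σ i) = ∑ i ∈ s, idealState ℓ (σ i) := by
  induction s using Finset.induction_on with
  | empty => funext i j; simp [idealState]
  | insert a s ha ih => rw [Finset.sum_insert ha, Finset.sum_insert ha, idealState_add, ih]

variable {L R : Type} [Fintype L] [Fintype R]

/-- Eve's conditional vector: a signed sum of components. -/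
def mixVec (Φ : Vec r ℓ k → R → E → ℂ) (S : Finset (Vec r ℓ k)) (x : Vec r ℓ k) (q : R) : E → ℂ :=
  fun e => ∑ w ∈ S, sgn w x * Φ w q e

lemma sum_nsq_mixVec {Φ : Vec r ℓ k → R → E → ℂ} {q : Vec r ℓ k → ℝ}
    (horth : ∀ w w', ∑ a, ∑ e, starRingEnd ℂ (Φ w a e) * Φ w' a e =
      if w = w' then (q w : ℂ) else 0)
    (S : Finset (Vec r ℓ k)) (x : Vec r ℓ k) :
    ∑ a, nsq (mixVec Φ S x a) = ∑ w ∈ S, q w := by
  have h : ((∑ a, nsq (mixVec Φ S x a) : ℝ) : ℂ) = ((∑ w ∈ S, q w : ℝ) : ℂ) := by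
    rw [Complex.ofReal_sum, Complex.ofReal_sum]
    calc ∑ a, (nsq (mixVec Φ S x a) : ℂ)
        = ∑ a, ∑ e, ∑ w ∈ S, ∑ w' ∈ S,
            (sgn w x * sgn w' x) * (starRingEnd ℂ (Φ w a e) * Φ w' a e) := by
          refine Finset.sum_congr rfl fun a _ => ?_
          rw [← star_dot_self]
          simp only [dotProduct, Pi.star_apply, mixVec]
          refine Finset.sum_congr rfl fun e _ => ?_
          rw [Complex.star_def, map_sum, Finset.sum_mul]
          refine Finset.sum_congr rfl fun w _ => ?_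
          rw [Finset.mul_sum]
          refine Finset.sum_congr rfl fun w' _ => ?_
          rw [map_mul, conj_sgn]
          ring
      _ = ∑ w ∈ S, ∑ w' ∈ S,
            (sgn w x * sgn w' x) * ∑ a, ∑ e, starRingEnd ℂ (Φ w a e) * Φ w' a e := by
          simp only [Finset.mul_sum]
          rw [Finset.sum_comm_cycle]
          refine Finset.sum_congr rfl fun w _ => ?_
          rw [Finset.sum_comm_cycle]
      _ = ∑ w ∈ S, (q w : ℂ) := by
          refine Finset.sum_congr rfl fun w hw => ?_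
          simp only [horth, mul_ite, mul_zero, Finset.sum_ite_eq, hw, if_true]
          rw [← sgn_add_left, show w + w = 0 from funext fun i => two_add _, sgn_zero, one_mul]
  exact_mod_cast h

omit [Fintype E] in
lemma sum_coset {Φ : Vec r ℓ k → R → E → ℂ} {θ : Code r ℓ k} {T : Finset (Vec r ℓ k)}
    (hT : ∀ w ∈ T, ∀ w' ∈ T, w ≠ w' → ¬ InDual θ (w + w')) (s : Fin r → ZMod 2)
    (z : Fin ℓ → ZMod 2) (e e' : E) :
    ∑ c, ∑ a, mixVec Φ T (solve θ s z c) a e * starRingEnd ℂ (mixVec Φ T (solve θ s z c) a e') =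
      2 ^ k * ∑ w ∈ T, ∑ a, Φ w a e * starRingEnd ℂ (Φ w a e') := by
  calc _ = ∑ c, ∑ a, ∑ w ∈ T, ∑ w' ∈ T,
        sgn (w + w') (solve θ s z c) * (Φ w a e * starRingEnd ℂ (Φ w' a e')) := by
        refine Finset.sum_congr rfl fun c _ => Finset.sum_congr rfl fun a _ => ?_
        simp only [mixVec]
        rw [map_sum, Finset.sum_mul]
        refine Finset.sum_congr rfl fun w _ => ?_
        rw [Finset.mul_sum]
        refine Finset.sum_congr rfl fun w' _ => ?_
        rw [map_mul, conj_sgn, sgn_add_left]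
        ring
    _ = ∑ a, ∑ w ∈ T, ∑ w' ∈ T,
        (∑ c, sgn (w + w') (solve θ s z c)) * (Φ w a e * starRingEnd ℂ (Φ w' a e')) := by
        rw [Finset.sum_comm]
        refine Finset.sum_congr rfl fun a _ => ?_
        rw [Finset.sum_comm]
        refine Finset.sum_congr rfl fun w _ => ?_
        rw [Finset.sum_comm]
        exact Finset.sum_congr rfl fun w' _ => (Finset.sum_mul _ _ _).symm
    _ = ∑ a, ∑ w ∈ T, (2 : ℂ) ^ k * (Φ w a e * starRingEnd ℂ (Φ w a e')) := by
        refine Finset.sum_congr rfl fun a _ => Finset.sum_congr rfl fun w hw => ?_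
        rw [Finset.sum_eq_single w]
        · rw [show w + w = 0 from funext fun i => two_add _]
          simp [sgn_zero, ZMod.card]
        · intro w' hw' hne
          rw [sum_sgn_eq_zero (hT w hw w' hw' (Ne.symm hne)), zero_mul]
        · exact fun h => absurd hw h
    _ = _ := by
        rw [Finset.sum_comm, Finset.mul_sum]
        exact Finset.sum_congr rfl fun w _ => (Finset.mul_sum _ _ _).symm

lemma Contr.trace_sum_outer_sub {ι : Type} [Fintype ι] {W : Matrix ι ι ℂ} (hW : Contr W)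
    {A : Type} (S : Finset A) (u v : A → ι → ℂ) :
    ‖trace (W * (∑ a ∈ S, outer (u a) - ∑ a ∈ S, outer (v a)))‖ ≤
      √(∑ a ∈ S, nsq (u a - v a)) *
        (√(∑ a ∈ S, nsq (u a)) + √(∑ a ∈ S, nsq (v a))) := by
  rw [← Finset.sum_sub_distrib, Matrix.mul_sum, trace_sum]
  refine (norm_sum_le _ _).trans ?_
  calc ∑ a ∈ S, ‖trace (W * (outer (u a) - outer (v a)))‖
      ≤ ∑ a ∈ S, √(nsq (u a - v a)) * (√(nsq (u a)) + √(nsq (v a))) := by
        refine Finset.sum_le_sum fun a _ => ?_
        rw [Matrix.mul_sub, trace_sub]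
        exact hW.outer_sub_le _ _
    _ ≤ _ := by
        simp only [mul_add, Finset.sum_add_distrib]
        exact add_le_add
          (Real.sum_sqrt_mul_sqrt_le _ (fun a => nsq_nonneg _) (fun a => nsq_nonneg _))
          (Real.sum_sqrt_mul_sqrt_le _ (fun a => nsq_nonneg _) (fun a => nsq_nonneg _))

theorem key_bound (θ : Code r ℓ k) (dec : (Fin r → ZMod 2) → Vec r ℓ k → Key ℓ)
    (φ : L → E → ℂ) (x y : L → Vec r ℓ k) (Φ : Vec r ℓ k → R → E → ℂ) (q : Vec r ℓ k → ℝ)
    (hcond : ∀ (x₀ : Vec r ℓ k) (e e' : E),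
      ∑ l, (if x l = x₀ then φ l e * starRingEnd ℂ (φ l e') else 0) =
        ∑ a, mixVec Φ Finset.univ x₀ a e * starRingEnd ℂ (mixVec Φ Finset.univ x₀ a e'))
    (horth : ∀ w w', ∑ a, ∑ e, starRingEnd ℂ (Φ w a e) * Φ w' a e =
      if w = w' then (q w : ℂ) else 0)
    (hq : (Fintype.card (Vec r ℓ k) : ℝ) * ∑ w, q w = 1)
    (T : Finset (Vec r ℓ k))
    (hT : ∀ w ∈ T, ∀ w' ∈ T, w ≠ w' → ¬ InDual θ (w + w'))
    (emb : (Fin r → ZMod 2) × E ≃ E') (e₀ : E') :
    ∃ σ : Matrix E' E' ℂ, σ.PosSemidef ∧ σ.trace = 1 ∧ ∀ W, Contr W →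
      ‖trace (W * (∑ l, outer (keyed (kbEquiv ℓ (key θ (x l))) (dec (syn θ (x l)) (y l))
          (put emb (syn θ (x l)) (φ l))) - idealState ℓ σ))‖ ≤
        2 * (∑ l, if kbEquiv ℓ (key θ (x l)) ≠ dec (syn θ (x l)) (y l) then nsq (φ l) else 0) +
          2 * √((Fintype.card (Vec r ℓ k) : ℝ) * ∑ w ∈ Tᶜ, q w) +
          (Fintype.card (Vec r ℓ k) : ℝ) * ∑ w ∈ Tᶜ, q w := by
  set M : ℝ := (Fintype.card (Vec r ℓ k) : ℝ) with hM
  have hM2 : (M : ℂ) = 2 ^ ℓ * 2 ^ r * 2 ^ k := by
    simp [M, Fintype.card_pi, ZMod.card, Fintype.card_sum, pow_add]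
    ring
  have hqn : ∀ w, 0 ≤ q w := fun w => by
    have := sum_nsq_mixVec horth {w} 0
    rw [Finset.sum_singleton] at this
    rw [← this]
    exact Finset.sum_nonneg fun a _ => nsq_nonneg _
  set bad : ℝ := M * ∑ w ∈ Tᶜ, q w with hbad
  have hbad0 : 0 ≤ bad := mul_nonneg (Nat.cast_nonneg _) (Finset.sum_nonneg fun w _ => hqn w)
  set σ₁ : Matrix E' E' ℂ := ∑ s, ∑ w ∈ T, ∑ a,
    ((2 ^ ℓ * 2 ^ k : ℝ) : ℂ) • outer (put emb s (Φ w a))
  set g : E' → ℂ := fun e => if e = e₀ then ((√bad : ℝ) : ℂ) else 0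
  have hg : nsq g = bad := by
    unfold nsq g
    rw [Finset.sum_eq_single e₀]
    · simp [abs_of_nonneg (Real.sqrt_nonneg bad), Real.sq_sqrt hbad0]
    · intro b _ hb; simp [hb]
    · simp
  refine ⟨σ₁ + outer g, ?_, ?_, ?_⟩
  · refine PosSemidef.add ?_ (outer_posSemidef _)
    refine posSemidef_sum _ fun s _ => posSemidef_sum _ fun w _ => posSemidef_sum _ fun a _ => ?_
    exact (outer_posSemidef _).smul (by positivity)
  · have hn : ∀ w, ∑ a, nsq (Φ w a) = q w := fun w => by
      have hm : ∀ a, mixVec Φ {w} 0 a = Φ w a := fun a => by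
        funext e
        simp [mixVec, sgn, dot]
      simpa [hm] using sum_nsq_mixVec horth {w} 0
    have e1 : σ₁.trace = ((M * ∑ w ∈ T, q w : ℝ) : ℂ) := by
      simp only [σ₁, trace_sum, trace_smul, trace_outer, nsq_put, smul_eq_mul, ← Finset.mul_sum,
        ← Complex.ofReal_sum, hn]
      simp only [Complex.ofReal_mul, hM2, Finset.sum_const, Finset.card_univ, card_fun_zmod,
        nsmul_eq_mul]
      push_cast
      ring
    rw [trace_add, e1, trace_outer, hg, ← Complex.ofReal_add, hbad, ← mul_add,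
      Finset.sum_add_sum_compl, hq, Complex.ofReal_one]
  intro W hW
  set kA : L → Key ℓ := fun l => kbEquiv ℓ (key θ (x l))
  set A := ∑ l, outer (keyed (kA l) (dec (syn θ (x l)) (y l)) (put emb (syn θ (x l)) (φ l)))
  set B := ∑ l, outer (keyed (kA l) (kA l) (put emb (syn θ (x l)) (φ l)))
  set V : Finset (Vec r ℓ k) → Vec r ℓ k × R → Key ℓ × Key ℓ × E' → ℂ := fun S p =>
    keyed (kbEquiv ℓ (key θ p.1)) (kbEquiv ℓ (key θ p.1))
      (put emb (syn θ p.1) (mixVec Φ S p.1 p.2))
  have hB : B = ∑ p, outer (V Finset.univ p) := by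
    funext i j
    simp only [B, Matrix.sum_apply, outer, V, Fintype.sum_prod_type]
    calc ∑ l, _ = ∑ x₀, ∑ l, if x l = x₀ then
          keyed (kA l) (kA l) (put emb (syn θ (x l)) (φ l)) i * starRingEnd ℂ
            (keyed (kA l) (kA l) (put emb (syn θ (x l)) (φ l)) j) else 0 := by
          rw [Finset.sum_comm]; simp
      _ = _ := by
          refine Finset.sum_congr rfl fun x₀ _ => ?_
          rw [Finset.sum_congr rfl fun l _ => (show (if x l = x₀ then _ else (0 : ℂ)) =
            if x l = x₀ then keyed (kbEquiv ℓ (key θ x₀)) (kbEquiv ℓ (key θ x₀))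
              (put emb (syn θ x₀) (φ l)) i * starRingEnd ℂ (keyed (kbEquiv ℓ (key θ x₀))
              (kbEquiv ℓ (key θ x₀)) (put emb (syn θ x₀) (φ l)) j) else 0 by
            split_ifs with h
            · simp only [kA, h]
            · rfl)]
          simp only [keyed, put]
          by_cases hi : i.1 = kbEquiv ℓ (key θ x₀) ∧ i.2.1 = kbEquiv ℓ (key θ x₀) <;>
            by_cases hj : j.1 = kbEquiv ℓ (key θ x₀) ∧ j.2.1 = kbEquiv ℓ (key θ x₀) <;>
            by_cases hi' : (emb.symm i.2.2).1 = syn θ x₀ <;>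
            by_cases hj' : (emb.symm j.2.2).1 = syn θ x₀ <;>
            simp [hi, hj, hi', hj', hcond]
  have hC : ∑ p, outer (V T p) = idealState ℓ σ₁ := by
    simp only [σ₁, idealState_sum, idealState_smul, idealState_outer, Finset.smul_sum, smul_smul,
      V, Fintype.sum_prod_type]
    rw [← Equiv.sum_comp (splitEquiv θ).symm, Fintype.sum_prod_type]
    simp only [Fintype.sum_prod_type, splitEquiv, Equiv.coe_fn_symm_mk, key_solve, syn_solve]
    rw [Finset.sum_comm]
    refine Finset.sum_congr rfl fun s _ => ?_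
    conv_rhs => enter [2, w]; rw [Finset.sum_comm]
    rw [Finset.sum_comm (s := T), ← Equiv.sum_comp (kbEquiv ℓ) (g := fun z : Key ℓ =>
      ∑ w ∈ T, ∑ a, _)]
    refine Finset.sum_congr rfl fun z _ => ?_
    funext i j
    simp only [Matrix.sum_apply, Matrix.smul_apply, smul_eq_mul, outer, keyed, put]
    have hc : (2 : ℂ) ^ ℓ * 2 ^ k * (2 ^ ℓ)⁻¹ = 2 ^ k := by field_simp
    by_cases hi : i.1 = kbEquiv ℓ z ∧ i.2.1 = kbEquiv ℓ z <;>
      by_cases hj : j.1 = kbEquiv ℓ z ∧ j.2.1 = kbEquiv ℓ z <;>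
      by_cases hi' : (emb.symm i.2.2).1 = s <;>
      by_cases hj' : (emb.symm j.2.2).1 = s <;>
      simp [hi, hj, hi', hj', hc, sum_coset hT, Finset.mul_sum]
  have h1 : ‖trace (W * (A - B))‖ ≤
      2 * ∑ l, if kA l ≠ dec (syn θ (x l)) (y l) then nsq (φ l) else 0 := by
    simp only [A, B, ← Finset.sum_sub_distrib, Matrix.mul_sum, trace_sum]
    rw [Finset.mul_sum]
    refine (norm_sum_le _ _).trans (Finset.sum_le_sum fun l _ => ?_)
    by_cases h : kA l = dec (syn θ (x l)) (y l)
    · rw [← h]; simp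
    · rw [if_pos h, Matrix.mul_sub, trace_sub]
      refine (norm_sub_le _ _).trans ?_
      have h1 := hW.outer_le (keyed (kA l) (dec (syn θ (x l)) (y l))
        (put emb (syn θ (x l)) (φ l)))
      have h2 := hW.outer_le (keyed (kA l) (kA l) (put emb (syn θ (x l)) (φ l)))
      rw [nsq_keyed, nsq_put] at h1 h2
      linarith
  have h2 : ‖trace (W * (B - idealState ℓ σ₁))‖ ≤ 2 * √bad := by
    rw [hB, ← hC]
    refine (hW.trace_sum_outer_sub _ _ _).trans ?_
    have hs : ∀ S, ∑ p, nsq (V S p) = M * ∑ w ∈ S, q w := fun S => by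
      simp only [V, Fintype.sum_prod_type, nsq_keyed, nsq_put, sum_nsq_mixVec horth,
        Finset.sum_const, Finset.card_univ, nsmul_eq_mul, M]
    have hd : ∀ p, V Finset.univ p - V T p = V Tᶜ p := fun p => by
      simp only [V, keyed_put_sub]
      congr 2
      funext e
      simp only [mixVec, Pi.sub_apply, ← Finset.sum_add_sum_compl T, add_sub_cancel_left]
    simp only [hd, hs, hq, Real.sqrt_one]
    have hle : M * ∑ w ∈ T, q w ≤ 1 := by
      rw [← hq]
      exact mul_le_mul_of_nonneg_left (Finset.sum_le_sum_of_subset_of_nonneg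
        (Finset.subset_univ _) fun w _ _ => hqn w) (Nat.cast_nonneg _)
    have := Real.sqrt_le_one.2 hle
    rw [← hbad]
    nlinarith [Real.sqrt_nonneg bad]
  have h3 : ‖trace (W * idealState ℓ (outer g))‖ ≤ bad := by
    rw [idealState_outer, Matrix.mul_sum, trace_sum]
    refine (norm_sum_le _ _).trans ?_
    calc ∑ z : Key ℓ, ‖trace (W * ((1 / 2 ^ ℓ : ℂ) • outer (keyed z z g)))‖
        ≤ ∑ _z : Key ℓ, (1 / 2 ^ ℓ : ℝ) * bad := by
          refine Finset.sum_le_sum fun z _ => ?_
          rw [Matrix.mul_smul, trace_smul, norm_smul]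
          have := hW.outer_le (keyed z z g)
          rw [nsq_keyed, hg] at this
          simp only [norm_div, norm_one, norm_pow, Complex.norm_ofNat]
          exact mul_le_mul_of_nonneg_left this (by positivity)
      _ = bad := by simp [Fintype.card_pi]
  rw [idealState_add, show A - (idealState ℓ σ₁ + idealState ℓ (outer g)) =
    (A - B) + (B - idealState ℓ σ₁) - idealState ℓ (outer g) by abel, Matrix.mul_sub, trace_sub,
    Matrix.mul_add, trace_add]
  refine (norm_sub_le _ _).trans (add_le_add ((norm_add_le _ _).trans (add_le_add h1 h2)) h3)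

end Vale.P372
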