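import Vale.Agent.P372.Defs

/-!
# The states `rhoC`: trace and purification
-/

noncomputable section

open scoped BigOperators ComplexOrder Classical
open Matrix

namespace Vale.P372

variable {d : ℕ}

lemma normC_pos {c : Fin d → Fin d → ℝ} (hd : 0 < d) (hc : ∀ i j, i ≠ j → 0 ≤ c i j) :
    0 < normC c := by
  have h : 0 ≤ ∑ i, ∑ j, if i = j then 0 else c i j :=
    Finset.sum_nonneg fun i _ => Finset.sum_nonneg fun j _ => by
      split_ifs with h
      · exact le_rfl
      · exact hc i j h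
  have : (0 : ℝ) < d := by exact_mod_cast hd
  unfold normC
  linarith

lemma rhoC_apply (c : Fin d → Fin d → ℝ) (x y : Fin d × Fin d) :
    rhoC c x y = (((normC c)⁻¹ *
      if x.1 = x.2 ∧ y.1 = y.2 then 1 else if x = y then c x.1 x.2 else 0 : ℝ) : ℂ) := by
  simp only [rhoC]
  split_ifs <;> simp

lemma rhoC_trace {c : Fin d → Fin d → ℝ} (hd : 0 < d) (hc : ∀ i j, i ≠ j → 0 ≤ c i j) :
    ∑ x, rhoC c x x = 1 := by
  simp only [rhoC_apply, ← Complex.ofReal_sum, ← Finset.mul_sum]
  rw [← Complex.ofReal_one]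
  congr 1
  have h : ∀ a b : Fin d, (if a = b then 1 else c a b) =
      (if a = b then (1 : ℝ) else 0) + if a = b then 0 else c a b := fun a b => by
    split_ifs <;> ring
  simp only [Fintype.sum_prod_type, and_self, if_true, h, Finset.sum_add_distrib,
    Finset.sum_ite_eq, Finset.mem_univ, Finset.sum_const, Finset.card_univ, Fintype.card_fin,
    nsmul_one]
  exact inv_mul_cancel₀ (normC_pos hd hc).ne'

/-- A purification of `rhoC`. -/
def psiC (c : Fin d → Fin d → ℝ) (a b : Fin d) (z : Fin (d * d + 1)) : ℂ :=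
  (((√(normC c))⁻¹ * Fin.cases (if a = b then 1 else 0)
    (fun e => if a ≠ b ∧ finProdFinEquiv (a, b) = e then √(c a b) else 0) z : ℝ) : ℂ)

lemma psiC_purifies {c : Fin d → Fin d → ℝ} (hd : 0 < d) (hc : ∀ i j, i ≠ j → 0 ≤ c i j) :
    Purifies (psiC c) (rhoC c) := by
  intro a b a' b'
  rw [rhoC_apply]
  simp only [psiC, Complex.conj_ofReal, ← Complex.ofReal_mul, ← Complex.ofReal_sum]
  congr 1
  have hs : (√(normC c))⁻¹ * (√(normC c))⁻¹ = (normC c)⁻¹ := by
    rw [← mul_inv, Real.mul_self_sqrt (normC_pos hd hc).le]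
  simp only [mul_mul_mul_comm _ _ (√(normC c))⁻¹, hs, ← Finset.mul_sum]
  congr 1
  rw [Fin.sum_univ_succ]
  simp only [Fin.cases_zero, Fin.cases_succ]
  rw [← Equiv.sum_comp finProdFinEquiv]
  simp only [EmbeddingLike.apply_eq_iff_eq]
  by_cases h : a = b
  · subst h
    by_cases h' : a' = b'
    · subst h'
      simp
    · simp only [h', and_false, if_false, if_true, mul_zero, zero_add]
      rw [if_neg (fun q => h' ((Prod.mk.injEq _ _ _ _ ▸ q).1.symm.trans (Prod.mk.injEq _ _ _ _ ▸ q).2))]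
      simp
  · simp only [h, false_and, if_false, ne_eq, not_false_eq_true, true_and, zero_mul, zero_add,
      ite_mul, Finset.sum_ite_eq, Finset.mem_univ, if_true]
    by_cases h2 : (a, b) = (a', b')
    · obtain ⟨rfl, rfl⟩ := Prod.mk.injEq _ _ _ _ ▸ h2
      simp [h, Real.mul_self_sqrt (hc a b h)]
    · rw [if_neg h2, if_neg (fun q => h2 q.2.symm)]
      simp

lemma rhoC_purifiable {c : Fin d → Fin d → ℝ} (hd : 0 < d) (hc : ∀ i j, i ≠ j → 0 ≤ c i j) :
    ∃ (m : ℕ) (ψ : Fin d → Fin d → Fin m → ℂ), Purifies ψ (rhoC c) :=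
  ⟨_, psiC c, psiC_purifies hd hc⟩

end Vale.P372
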