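import Vale.Agent.P372.Criterion
import Vale.Agent.P372.States

/-!
# Blocks supported on a few product levels of several copies
-/

noncomputable section

open scoped BigOperators ComplexOrder Classical
open Matrix

namespace Vale.P372

variable {d n m : ℕ}

lemma isometry_sum {U S C : Type} [Fintype U] [Fintype S] [Fintype C] [DecidableEq C]
    (K : U → Matrix S C ℂ) (hK : ∑ u, (K u)ᴴ * K u = 1) (f : C → ℂ) :
    ∑ p : U × S, ‖∑ a, K p.1 p.2 a * f a‖ ^ 2 = ∑ a, ‖f a‖ ^ 2 := by
  have hK' : ∀ a a', ∑ p : U × S, starRingEnd ℂ (K p.1 p.2 a) * K p.1 p.2 a' =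
      if a = a' then 1 else 0 := fun a a' => by
    have := congrFun (congrFun hK a) a'
    simpa [Matrix.sum_apply, mul_apply, one_apply, Fintype.sum_prod_type] using this
  apply Complex.ofReal_injective
  push_cast
  simp only [← Complex.conj_mul', map_sum, map_mul, Finset.sum_mul_sum]
  rw [Finset.sum_comm]
  refine Finset.sum_congr rfl fun a _ => ?_
  rw [Finset.sum_comm]
  rw [Finset.sum_eq_single a]
  · calc _ = (∑ p : U × S, starRingEnd ℂ (K p.1 p.2 a) * K p.1 p.2 a) *
          (starRingEnd ℂ (f a) * f a) := by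
            rw [Finset.sum_mul]
            exact Finset.sum_congr rfl fun p _ => by ring
      _ = _ := by rw [hK', if_pos rfl, one_mul]
  · intro a' _ h
    calc _ = (∑ p : U × S, starRingEnd ℂ (K p.1 p.2 a) * K p.1 p.2 a') *
          (starRingEnd ℂ (f a) * f a') := by
            rw [Finset.sum_mul]
            exact Finset.sum_congr rfl fun p _ => by ring
      _ = 0 := by rw [hK', if_neg h.symm, zero_mul]
  · simp

/-- The branches of complete instruments carry total weight one. -/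
lemma rawAmp_total {U V S T : Type} [Fintype U] [Fintype V] [Fintype S] [Fintype T]
    {KA : U → Matrix S (Fin n → Fin d) ℂ} {KB : V → Matrix T (Fin n → Fin d) ℂ}
    (hA : ∑ u, (KA u)ᴴ * KA u = 1) (hB : ∑ v, (KB v)ᴴ * KB v = 1)
    {ρ : Matrix (Fin d × Fin d) (Fin d × Fin d) ℂ} {ψ : Fin d → Fin d → Fin m → ℂ}
    (hψ : Purifies ψ ρ) (htr : ∑ x, ρ x x = 1) :
    ∑ l, nsq (rawAmp KA KB ψ l) = 1 := by
  rw [← tail_total (rest := n) hψ htr]
  simp only [nsq]
  rw [Finset.sum_comm]
  conv_rhs => rw [Finset.sum_comm]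
  refine Finset.sum_congr rfl fun z _ => ?_
  calc ∑ l : U × V × S × T, ‖rawAmp KA KB ψ l z‖ ^ 2
      = ∑ q : V × T, ∑ p : U × S,
          ‖∑ a, KA p.1 p.2 a * ∑ b, KB q.1 q.2 b * tailVec ψ (a, b) z‖ ^ 2 := by
        simp only [Fintype.sum_prod_type]
        rw [Finset.sum_comm]
        refine Finset.sum_congr rfl fun v _ => ?_
        conv_rhs => rw [Finset.sum_comm]
        refine Finset.sum_congr rfl fun u _ => ?_
        rw [Finset.sum_comm]
        refine Finset.sum_congr rfl fun t _ => Finset.sum_congr rfl fun s _ => ?_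
        simp only [rawAmp, tailVec, Finset.mul_sum]
        congr 2
        exact Finset.sum_congr rfl fun a _ => Finset.sum_congr rfl fun b _ => by ring
    _ = ∑ q : V × T, ∑ a, ‖∑ b, KB q.1 q.2 b * tailVec ψ (a, b) z‖ ^ 2 :=
        Finset.sum_congr rfl fun q _ => isometry_sum KA hA _
    _ = _ := by
        rw [Finset.sum_comm, Fintype.sum_prod_type]
        exact Finset.sum_congr rfl fun a _ => isometry_sum KB hB _

/-- The bilinear form of the effective state on the levels. -/
def lvlForm {J : Type} [Fintype J] (C : J → J → ℝ) (u v : J × J → ℝ) : ℝ :=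
  (∑ j, u (j, j)) * (∑ j, v (j, j)) +
    ∑ j, ∑ k, if j = k then 0 else C j k * (u (j, k) * v (j, k))

/-- Product coefficients of the two sides. -/
def prodCoef {J S T : Type} (A : ZMod 2 → S → J → ℝ) (B : ZMod 2 → T → J → ℝ) (x y : ZMod 2)
    (r : S × T) : J × J → ℝ := fun p => A x r.1 p.1 * B y r.2 p.2

/-- Eve's vector of a pair of levels. -/
def lvlVec {J : Type} (ψ : Fin d → Fin d → Fin m → ℂ) (cfg : J → Fin n → Fin d) (p : J × J)
    (z : Fin n → Fin m) : ℂ :=
  ∏ i, ψ (cfg p.1 i) (cfg p.2 i) (z i)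

/-- Eve's vector of a combination of pairs of levels. -/
def combVec {J : Type} [Fintype J] (ψ : Fin d → Fin d → Fin m → ℂ) (cfg : J → Fin n → Fin d)
    (u : J × J → ℝ) (z : Fin n → Fin m) : ℂ :=
  ∑ p, (u p : ℂ) * lvlVec ψ cfg p z

lemma ip_lvlVec {J : Type} (c : Fin d → Fin d → ℝ) {ψ : Fin d → Fin d → Fin m → ℂ}
    (hψ : Purifies ψ (rhoC c)) (cfg : J → Fin n → Fin d) (hn : 0 < n)
    (hcfg : ∀ j k, j ≠ k → ∀ i, cfg j i ≠ cfg k i) (p q : J × J) :
    ip (lvlVec ψ cfg p) (lvlVec ψ cfg q) = ((((normC c)⁻¹) ^ n *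
      if p.1 = p.2 ∧ q.1 = q.2 then 1 else
        if p = q then ∏ i, c (cfg p.1 i) (cfg p.2 i) else 0 : ℝ) : ℂ) := by
  have h : ip (lvlVec ψ cfg p) (lvlVec ψ cfg q) =
      ∏ i, rhoC c (cfg q.1 i, cfg q.2 i) (cfg p.1 i, cfg p.2 i) := by
    simp only [ip, lvlVec, map_prod, ← Finset.prod_mul_distrib]
    rw [← Fintype.prod_sum (fun i w => starRingEnd ℂ (ψ (cfg p.1 i) (cfg p.2 i) w) *
      ψ (cfg q.1 i) (cfg q.2 i) w)]
    refine Finset.prod_congr rfl fun i _ => ?_
    rw [hψ]
    exact Finset.sum_congr rfl fun w _ => mul_comm _ _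
  rw [h]
  simp only [rhoC_apply, ← Complex.ofReal_prod, Finset.prod_mul_distrib, Finset.prod_const,
    Finset.card_univ, Fintype.card_fin]
  congr 2
  by_cases hd : p.1 = p.2 ∧ q.1 = q.2
  · rw [if_pos hd]
    exact Finset.prod_eq_one fun i _ => by simp [hd.1, hd.2]
  rw [if_neg hd]
  by_cases hpq : p = q
  · subst hpq
    rw [if_pos rfl]
    refine Finset.prod_congr rfl fun i _ => ?_
    have hne := hcfg p.1 p.2 (fun e => hd ⟨e, e⟩) i
    simp [hne]
  rw [if_neg hpq]
  refine Finset.prod_eq_zero (Finset.mem_univ ⟨0, hn⟩) ?_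
  rw [if_neg, if_neg]
  · intro e
    simp only [Prod.mk.injEq] at e
    apply hpq
    refine Prod.ext ?_ ?_
    · by_contra hne
      exact hcfg _ _ (Ne.symm hne) _ e.1
    · by_contra hne
      exact hcfg _ _ (Ne.symm hne) _ e.2
  · rintro ⟨e1, e2⟩
    refine hd ⟨?_, ?_⟩
    · by_contra hne
      exact hcfg _ _ hne _ e2
    · by_contra hne
      exact hcfg _ _ hne _ e1

lemma ip_combVec {J : Type} [Fintype J] (c : Fin d → Fin d → ℝ) {ψ : Fin d → Fin d → Fin m → ℂ}
    (hψ : Purifies ψ (rhoC c)) (cfg : J → Fin n → Fin d) (hn : 0 < n)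
    (hcfg : ∀ j k, j ≠ k → ∀ i, cfg j i ≠ cfg k i) (u v : J × J → ℝ) :
    ip (combVec ψ cfg u) (combVec ψ cfg v) =
      ((((normC c)⁻¹) ^ n * lvlForm (fun j k => ∏ i, c (cfg j i) (cfg k i)) u v : ℝ) : ℂ) := by
  have h : ip (combVec ψ cfg u) (combVec ψ cfg v) =
      ∑ p, ∑ q, ((u p * v q : ℝ) : ℂ) * ip (lvlVec ψ cfg p) (lvlVec ψ cfg q) := by
    simp only [ip, combVec, map_sum, map_mul, Complex.conj_ofReal, Finset.sum_mul_sum]
    simp only [Finset.mul_sum, Complex.ofReal_mul]
    rw [Finset.sum_comm]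
    refine Finset.sum_congr rfl fun p _ => ?_
    rw [Finset.sum_comm]
    exact Finset.sum_congr rfl fun q _ => Finset.sum_congr rfl fun z _ => by ring
  rw [h]
  simp only [ip_lvlVec c hψ cfg hn hcfg, ← Complex.ofReal_mul, ← Complex.ofReal_sum]
  congr 1
  set κ := ((normC c)⁻¹) ^ n
  have hp : ∀ p q : J × J, u p * v q * (κ * if p.1 = p.2 ∧ q.1 = q.2 then 1 else
      if p = q then ∏ i, c (cfg p.1 i) (cfg p.2 i) else 0) =
      κ * ((if p.1 = p.2 then u p else 0) * (if q.1 = q.2 then v q else 0)) +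
        if p = q then κ * (if p.1 = p.2 then 0
          else (∏ i, c (cfg p.1 i) (cfg p.2 i)) * (u p * v p)) else 0 := by
    intro p q
    by_cases h1 : p = q
    · subst h1
      by_cases h2 : p.1 = p.2 <;> simp [h2] <;> ring
    · by_cases h2 : p.1 = p.2 <;> by_cases h3 : q.1 = q.2 <;> simp [h1, h2, h3] <;> ring
  have hdiag : ∀ w : J × J → ℝ, (∑ p : J × J, if p.1 = p.2 then w p else 0) = ∑ j, w (j, j) :=
    fun w => by simp [Fintype.sum_prod_type]
  simp only [hp, Finset.sum_add_distrib, ← Finset.mul_sum, ← Finset.sum_mul, hdiag,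
    Finset.sum_ite_eq, Finset.mem_univ, if_true, lvlForm, mul_add]
  rw [Fintype.sum_prod_type]

/-- Scaled level operators with a failure outcome. -/
def lvlKraus {J S : Type} [Fintype J] [Fintype S] (cfg : J → Fin n → Fin d)
    (A : ZMod 2 → S → J → ℝ) (μ : ℝ) : Option (ZMod 2) → Matrix (S ⊕ (Fin n → Fin d)) (Fin n → Fin d) ℂ
  | some x => Matrix.of fun r a => r.elim
      (fun s => ((√μ * ∑ j, if cfg j = a then A x s j else 0 : ℝ) : ℂ)) fun _ => 0
  | none => Matrix.of fun r a => r.elim (fun _ => 0) fun b =>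
      if a = b then ((√(1 - μ * ∑ j, if cfg j = a then ∑ x, ∑ s, A x s j ^ 2 else 0) : ℝ) : ℂ) else 0

lemma lvlKraus_complete {J S : Type} [Fintype J] [Fintype S] {cfg : J → Fin n → Fin d}
    (hinj : Function.Injective cfg) {A : ZMod 2 → S → J → ℝ}
    (horth : ∀ j k, j ≠ k → ∑ x, ∑ s, A x s j * A x s k = 0) {μ : ℝ} (hμ0 : 0 ≤ μ)
    (hμ : ∀ j, μ * ∑ x, ∑ s, A x s j ^ 2 ≤ 1) :
    ∑ u, (lvlKraus cfg A μ u)ᴴ * lvlKraus cfg A μ u = 1 := by
  ext a a'
  simp only [Matrix.sum_apply, Matrix.mul_apply, conjTranspose_apply, Fintype.sum_option,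
    Fintype.sum_sum_type, lvlKraus, Matrix.of_apply, Sum.elim_inl, Sum.elim_inr, mul_zero,
    Finset.sum_const_zero, add_zero, zero_add, Complex.star_def, Complex.conj_ofReal,
    ← Complex.ofReal_mul, ← Complex.ofReal_sum, Matrix.one_apply]
  by_cases hex : ∀ j, cfg j ≠ a
  · by_cases h : a = a'
    · subst h; simp [hex]
    · simp [hex, h, apply_ite (starRingEnd ℂ)]
  push_neg at hex
  obtain ⟨j, rfl⟩ := hex
  have hj : ∀ g : J → ℝ, (∑ k, if cfg k = cfg j then g k else 0) = g j := fun g => by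
    simp [hinj.eq_iff]
  simp only [hj]
  by_cases h : cfg j = a'
  · subst h
    rw [if_pos rfl, Finset.sum_eq_single (cfg j)]
    · simp only [if_true, map_ofNat, Complex.conj_ofReal, ← Complex.ofReal_mul, hj]
      rw [Real.mul_self_sqrt (sub_nonneg.2 (hμ j)), ← Complex.ofReal_add, ← Complex.ofReal_one]
      congr 1
      have : ∀ x s, √μ * A x s j * (√μ * A x s j) = μ * A x s j ^ 2 := fun x s => by
        rw [mul_mul_mul_comm, Real.mul_self_sqrt hμ0, sq]
      simp only [this, ← Finset.mul_sum]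
      ring
    · intro b _ hb; simp [Ne.symm hb]
    · simp
  · rw [if_neg h]
    have h1 : (∑ b, starRingEnd ℂ (if cfg j = b then
          ((√(1 - μ * ∑ x, ∑ s, A x s j ^ 2) : ℝ) : ℂ) else 0) *
        if a' = b then ((√(1 - μ * ∑ k, if cfg k = a' then ∑ x, ∑ s, A x s k ^ 2 else 0) : ℝ) : ℂ)
        else 0) = 0 := Finset.sum_eq_zero fun b _ => by
      by_cases hb : cfg j = b
      · subst hb; simp [Ne.symm h]
      · simp [hb]
    rw [h1, zero_add]
    by_cases hex' : ∀ k, cfg k ≠ a'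
    · simp [hex']
    push_neg at hex'
    obtain ⟨k, rfl⟩ := hex'
    have hk : ∀ g : J → ℝ, (∑ l, if cfg l = cfg k then g l else 0) = g k := fun g => by
      simp [hinj.eq_iff]
    simp only [hk]
    rw [← Complex.ofReal_zero]
    congr 1
    have : ∀ x s, √μ * A x s j * (√μ * A x s k) = μ * (A x s j * A x s k) := fun x s => by
      rw [mul_mul_mul_comm, Real.mul_self_sqrt hμ0]
    simp only [this, ← Finset.mul_sum]
    rw [horth j k (fun e => h (e ▸ rfl)), mul_zero]

/-- The block of scaled level operators. -/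
abbrev lvlBlock {J S T : Type} [Fintype J] [Fintype S] [Fintype T] (cfg : J → Fin n → Fin d)
    (hinj : Function.Injective cfg) (A : ZMod 2 → S → J → ℝ) (B : ZMod 2 → T → J → ℝ)
    (hA : ∀ j k, j ≠ k → ∑ x, ∑ s, A x s j * A x s k = 0)
    (hB : ∀ j k, j ≠ k → ∑ x, ∑ s, B x s j * B x s k = 0) {μ : ℝ} (hμ0 : 0 ≤ μ)
    (hμA : ∀ j, μ * ∑ x, ∑ s, A x s j ^ 2 ≤ 1) (hμB : ∀ j, μ * ∑ x, ∑ s, B x s j ^ 2 ≤ 1) :
    Block d n where
  U := Option (ZMod 2)
  V := Option (ZMod 2)
  SA := S ⊕ (Fin n → Fin d)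
  SB := T ⊕ (Fin n → Fin d)
  krausA := lvlKraus cfg A μ
  krausB := lvlKraus cfg B μ
  completeA := lvlKraus_complete hinj hA hμ0 hμA
  completeB := lvlKraus_complete hinj hB hμ0 hμB
  sA := id
  sB := id

lemma lvl_amp {J S T : Type} [Fintype J] [Fintype S] [Fintype T] (cfg : J → Fin n → Fin d)
    (A : ZMod 2 → S → J → ℝ) (B : ZMod 2 → T → J → ℝ) {μ : ℝ} (hμ0 : 0 ≤ μ)
    (ψ : Fin d → Fin d → Fin m → ℂ) (x y : ZMod 2) (s : S ⊕ (Fin n → Fin d))
    (t : T ⊕ (Fin n → Fin d)) (z : Fin n → Fin m) :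
    rawAmp (lvlKraus cfg A μ) (lvlKraus cfg B μ) ψ (some x, some y, s, t) z =
      match s, t with
      | .inl s, .inl t => (μ : ℂ) * combVec ψ cfg (prodCoef A B x y (s, t)) z
      | _, _ => 0 := by
  rcases s with s | s <;> rcases t with t | t <;>
    simp only [rawAmp, lvlKraus, Matrix.of_apply, Sum.elim_inl, Sum.elim_inr, mul_zero, zero_mul,
      Finset.sum_const_zero]
  push_cast
  simp only [combVec, prodCoef, Fintype.sum_prod_type, Finset.mul_sum, Finset.sum_mul]
  refine Finset.sum_comm_cycle.trans ?_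
  conv_rhs => rw [Finset.sum_comm]
  refine Finset.sum_congr rfl fun k _ => ?_
  refine Finset.sum_comm_cycle.trans ?_
  refine Finset.sum_congr rfl fun j _ => ?_
  rw [Finset.sum_eq_single (cfg j), Finset.sum_eq_single (cfg k)]
  · simp only [if_true, lvlVec]
    have hs : ((√μ : ℝ) : ℂ) * ((√μ : ℝ) : ℂ) = (μ : ℂ) := by
      rw [← Complex.ofReal_mul, Real.mul_self_sqrt hμ0]
    rw [← hs]
    push_cast
    ring
  · intro b _ hb; simp [Ne.symm hb]
  · simp
  · intro a _ ha; exact Finset.sum_eq_zero fun b _ => by simp [Ne.symm ha]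
  · simp

/-- Level operators whose coherence beats the error give a positive key rate. -/
theorem keyPositive_of_levels {c : Fin d → Fin d → ℝ} (hd : 0 < d) (hc : ∀ i j, i ≠ j → 0 ≤ c i j)
    (hn : 0 < n) {J S T : Type} [Fintype J] [Fintype S] [Fintype T] [DecidableEq S] [DecidableEq T]
    (cfg : J → Fin n → Fin d) (hcfg : ∀ j k, j ≠ k → ∀ i, cfg j i ≠ cfg k i)
    (A : ZMod 2 → S → J → ℝ) (B : ZMod 2 → T → J → ℝ)
    (hA : ∀ j k, j ≠ k → ∑ x, ∑ s, A x s j * A x s k = 0)
    (hB : ∀ j k, j ≠ k → ∑ x, ∑ s, B x s j * B x s k = 0)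
    (W : Matrix (S × T) (S × T) ℝ) (hW : Wᵀ * W = 1) {a e F : ℝ}
    (hp : ∀ x y, ∑ r, lvlForm (fun j k => ∏ i, c (cfg j i) (cfg k i)) (prodCoef A B x y r)
      (prodCoef A B x y r) = if x = y then a else e)
    (hov : ∑ r, ∑ r', W r r' * lvlForm (fun j k => ∏ i, c (cfg j i) (cfg k i))
      (prodCoef A B 0 0 r) (prodCoef A B 1 1 r') = F)
    (he : 0 ≤ e) (hF : 0 < F) (hFa : F ≤ a) (hcrit : e * a ^ 3 < F ^ 4) :
    KeyPositive (rhoC c) := by
  have hinj : Function.Injective cfg := fun j k h => by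
    by_contra hne
    exact hcfg j k hne ⟨0, hn⟩ (congrFun h _)
  set SA := ∑ j, ∑ x, ∑ s, A x s j ^ 2 with hSA
  set SB := ∑ j, ∑ x, ∑ s, B x s j ^ 2 with hSB
  have hA0 : 0 ≤ SA := by positivity
  have hB0 : 0 ≤ SB := by positivity
  set μ := 1 / (1 + SA + SB) with hμdef
  have hμpos : 0 < μ := by positivity
  have hμA : ∀ j, μ * ∑ x, ∑ s, A x s j ^ 2 ≤ 1 := fun j => by
    have := Finset.single_le_sum (f := fun j => ∑ x, ∑ s, A x s j ^ 2)
      (fun j _ => by positivity) (Finset.mem_univ j)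
    rw [hμdef, div_mul_eq_mul_div, one_mul, div_le_one (by positivity)]
    linarith
  have hμB : ∀ j, μ * ∑ x, ∑ s, B x s j ^ 2 ≤ 1 := fun j => by
    have := Finset.single_le_sum (f := fun j => ∑ x, ∑ s, B x s j ^ 2)
      (fun j _ => by positivity) (Finset.mem_univ j)
    rw [hμdef, div_mul_eq_mul_div, one_mul, div_le_one (by positivity)]
    linarith
  set κ := μ ^ 2 * ((normC c)⁻¹) ^ n with hκ
  have hκ0 : 0 < κ := by
    have := normC_pos hd hc
    positivity
  have hgood : (lvlBlock cfg hinj A B hA hB hμpos.le hμA hμB).Good (rhoC c) (κ * a) (κ * e) (κ * F) := by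
    intro m ψ hψ
    set v : ZMod 2 → ZMod 2 → S × T → (Fin n → Fin m) → ℂ := fun x y r z =>
      (μ : ℂ) * combVec ψ cfg (prodCoef A B x y r) z with hv
    have hip : ∀ x y x' y' r r', ip (v x y r) (v x' y' r') = ((κ *
        lvlForm (fun j k => ∏ i, c (cfg j i) (cfg k i)) (prodCoef A B x y r) (prodCoef A B x' y' r') : ℝ) : ℂ) := by
      intro x y x' y' r r'
      have : ip (v x y r) (v x' y' r') = ((μ ^ 2 : ℝ) : ℂ) *
          ip (combVec ψ cfg (prodCoef A B x y r)) (combVec ψ cfg (prodCoef A B x' y' r')) := by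
        simp only [ip, hv, Finset.mul_sum, map_mul, Complex.conj_ofReal]
        exact Finset.sum_congr rfl fun z _ => by push_cast; ring
      rw [this, ip_combVec c hψ cfg hn hcfg, ← Complex.ofReal_mul, hκ, mul_assoc]
    set ν : ZMod 2 → ZMod 2 → S × T → (Fin n → Fin m) → ℂ := fun x y r z =>
      if x = 1 ∧ y = 1 then ∑ r', (W r r' : ℂ) * v x y r' z else v x y r z with hν
    have hcol : ∀ r' r'', ∑ r, W r r' * W r r'' = if r' = r'' then 1 else 0 := fun r' r'' => by
      have := congrFun (congrFun hW r') r''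
      simpa [Matrix.mul_apply, Matrix.one_apply] using this
    have hWsum : ∀ (f g : S × T → ℂ), ∑ r, (∑ r', (W r r' : ℂ) * f r') * (∑ r', (W r r' : ℂ) * g r') =
        ∑ r, f r * g r := by
      intro f g
      simp only [Finset.sum_mul_sum]
      rw [Finset.sum_comm]
      refine Finset.sum_congr rfl fun r' _ => ?_
      rw [Finset.sum_comm]
      have hc' : ∀ r'', ∑ r, (W r r' : ℂ) * f r' * ((W r r'' : ℂ) * g r'') =
          if r' = r'' then f r' * g r'' else 0 := fun r'' => by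
        calc _ = ((∑ r, W r r' * W r r'' : ℝ) : ℂ) * (f r' * g r'') := by
              push_cast
              rw [Finset.sum_mul]
              exact Finset.sum_congr rfl fun r _ => by ring
          _ = _ := by rw [hcol]; split_ifs <;> simp
      simp only [hc', Finset.sum_ite_eq, Finset.mem_univ, if_true]
    refine ⟨S × T, inferInstance, ν, ?_, ?_, ?_,
      rawAmp_total (lvlKraus_complete hinj hA hμpos.le hμA) (lvlKraus_complete hinj hB hμpos.le hμB)
        hψ (rhoC_trace hd hc)⟩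
    · intro x y z z'
      have hL : (∑ l : (lvlBlock cfg hinj A B hA hB hμpos.le hμA hμB).Label,
          if id l.1 = some x ∧ id l.2.1 = some y then
            rawAmp (lvlKraus cfg A μ) (lvlKraus cfg B μ) ψ l z *
              starRingEnd ℂ (rawAmp (lvlKraus cfg A μ) (lvlKraus cfg B μ) ψ l z') else 0) =
          ∑ r, v x y r z * starRingEnd ℂ (v x y r z') := by
        rw [Fintype.sum_prod_type, Finset.sum_eq_single (some x), Fintype.sum_prod_type,
          Finset.sum_eq_single (some y)]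
        · simp only [id, and_self, if_true, lvl_amp cfg A B hμpos.le ψ x y, Fintype.sum_prod_type,
            Fintype.sum_sum_type, map_zero, mul_zero, Finset.sum_const_zero, add_zero, hv]
        · intro u _ hu; simp [hu]
        · simp
        · intro u _ hu; simp [hu]
        · simp
      refine hL.trans ?_
      by_cases h : x = 1 ∧ y = 1
      · simp only [hν, if_pos h, map_sum, map_mul, Complex.conj_ofReal]
        rw [hWsum]
      · simp only [hν, if_neg h]
    · intro x y
      have hnv : ∑ r, ip (v x y r) (v x y r) = ((κ * if x = y then a else e : ℝ) : ℂ) := by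
        simp only [hip, ← Complex.ofReal_sum, ← Finset.mul_sum, hp]
      rw [show (if x = y then κ * a else κ * e) = κ * if x = y then a else e by split_ifs <;> rfl, ← hnv]
      by_cases h : x = 1 ∧ y = 1
      · simp only [hν, if_pos h, ip, map_sum, map_mul, Complex.conj_ofReal]
        rw [Finset.sum_comm]
        simp only [hWsum]
        rw [Finset.sum_comm]
      · simp only [hν, if_neg h]
    · simp only [hν, show ¬((0 : ZMod 2) = 1 ∧ (0 : ZMod 2) = 1) by decide, and_self, if_true, if_false]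
      have : ∀ r, ip (v 0 0 r) (fun z => ∑ r', (W r r' : ℂ) * v 1 1 r' z) =
          ∑ r', (W r r' : ℂ) * ip (v 0 0 r) (v 1 1 r') := fun r => by
        simp only [ip, Finset.mul_sum]
        rw [Finset.sum_comm]
        exact Finset.sum_congr rfl fun r' _ => Finset.sum_congr rfl fun z _ => by ring
      simp only [this, hip, ← Complex.ofReal_mul, ← Complex.ofReal_sum]
      congr 1
      rw [← hov, Finset.mul_sum]
      refine Finset.sum_congr rfl fun r _ => ?_
      rw [Finset.mul_sum]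
      exact Finset.sum_congr rfl fun r' _ => by ring
  exact keyPositive_of_block hn (rhoC_trace hd hc) (rhoC_purifiable hd hc) hgood
    (mul_nonneg hκ0.le he) (mul_pos hκ0 hF) (mul_le_mul_of_nonneg_left hFa hκ0.le)
    (by nlinarith [mul_lt_mul_of_pos_left hcrit (pow_pos hκ0 4)])

end Vale.P372
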